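import Vale.Agent.P219.T.Defs

/-!
# The chord of the model disc  (TASK)

`h = hh b ρ > |b|` (`hh_sq`).  With `t = exp (b l) = (h + b β) / (h - b β)`: `cosh`, `sinh` rational.  `chd_lt`: `r ↦ ww r / sn r` is strictly increasing (see the proof of `ray2_euc`), equality at the chord.
`chd_int`: `const_lint` with the primitive `f α = chd (cos α) * sin α + g α`, `g' α = 2 h sin² α / (h² - b² cos² α)`; `b = 0`: `g = ρ (α - sin α cos α)`;
`b ≠ 0`: `g = 2 h / b² * (α + k / 2 * arccos (1 - 2 * cnU k α))`, `k = (cs b ρ)⁻¹` (`cnT_der`, `h² - b² cos² = h² cnD k α`, see `NCert.const`).  `f` is continuous on `[0, π/2]`.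
-/

namespace Vale.Agent.P219

open scoped ContDiff Topology RealInnerProductSpace ENNReal
open MeasureTheory Set Filter Vale.Agent.P255
open St (sn gmod)

variable {E : Type*} [NormedAddCommGroup E] [InnerProductSpace ℝ E] [FiniteDimensional ℝ E]
  [MeasurableSpace E] [BorelSpace E] {G : E → Bil E} {L : E → E → E} {K S : Set E} {b ρ ε : ℝ}
  {τ : ℝ → ℝ} {x y e ν : E}

theorem chd_den (b : ℝ) (hρ : 0 < ρ) {β : ℝ} (h : β ^ 2 ≤ 1) :
    0 < hh b ρ + b * β ∧ 0 < hh b ρ - b * β ∧ 0 < hh b ρ ^ 2 - b ^ 2 * β ^ 2 := by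
  have h1 := sn_pos b hρ
  have h2 : 0 < 1 / sn b ρ ^ 2 := by positivity
  have h3 := mul_le_of_le_one_right (sq_nonneg b) h
  have h4 : (b * β) ^ 2 < hh b ρ ^ 2 := by
    rw [hh_sq b hρ, mul_pow]
    linarith
  have h5 := abs_lt_of_sq_lt_sq' h4 (hh_pos b hρ).le
  rw [mul_pow] at h4
  exact ⟨by linarith [h5.1], by linarith [h5.2], by linarith⟩

theorem chd_hh0 (ρ : ℝ) : hh 0 ρ = 1 / ρ := by
  rw [hh, snx_cs0, snx_sn0]

theorem chd_der (b : ℝ) (hρ : 0 < ρ) {β : ℝ} (h : β ^ 2 ≤ 1) :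
    HasDerivAt (chd b ρ) (2 * hh b ρ / (hh b ρ ^ 2 - b ^ 2 * β ^ 2)) β := by
  obtain ⟨h1, h2, h3⟩ := chd_den b hρ h
  rcases eq_or_ne b 0 with rfl | hb
  · have e : chd 0 ρ = fun β => 2 * ρ * β := funext fun _ => if_pos rfl
    rw [e, chd_hh0]
    refine ((hasDerivAt_id' β).const_mul (2 * ρ)).congr_deriv ?_
    have := hρ.ne'
    simp only [zero_pow two_ne_zero, zero_mul, sub_zero]
    field_simp
  · have e : chd b ρ = fun β => Real.log ((hh b ρ + b * β) / (hh b ρ - b * β)) / b :=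
      funext fun _ => if_neg hb
    rw [e]
    refine (((((((hasDerivAt_id' β).const_mul b).const_add (hh b ρ)).div
      (((hasDerivAt_id' β).const_mul b).const_sub (hh b ρ)) h2.ne').log
      (div_pos h1 h2).ne')).div_const b).congr_deriv ?_
    have e2 : hh b ρ ^ 2 - b ^ 2 * β ^ 2 = (hh b ρ + b * β) * (hh b ρ - b * β) := by ring
    rw [e2]
    have := h1.ne'
    have := h2.ne'
    simp only [Pi.div_apply]
    field_simp
    ring

theorem chd_sn (b : ℝ) (hρ : 0 < ρ) {β : ℝ} (h : β ^ 2 ≤ 1) :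
    sn b (chd b ρ β) = 2 * hh b ρ * β / (hh b ρ ^ 2 - b ^ 2 * β ^ 2) := by
  obtain ⟨h1, h2, h3⟩ := chd_den b hρ h
  rcases eq_or_ne b 0 with rfl | hb
  · rw [snx_sn0, chd, if_pos rfl, chd_hh0]
    have := hρ.ne'
    simp only [zero_pow two_ne_zero, zero_mul, sub_zero]
    field_simp
  · refine mul_left_cancel₀ hb ?_
    have e2 : hh b ρ ^ 2 - b ^ 2 * β ^ 2 = (hh b ρ + b * β) * (hh b ρ - b * β) := by ring
    rw [snx_mul, chd, if_neg hb, mul_div_cancel₀ _ hb, Real.sinh_log (div_pos h1 h2), e2]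
    have := h1.ne'
    have := h2.ne'
    field_simp
    ring

theorem chd_zero (b : ℝ) (hρ : 0 < ρ) : chd b ρ 0 = 0 := by
  have := (hh_pos b hρ).ne'
  unfold chd
  split_ifs <;> simp [this]

theorem chd_prim (b : ℝ) (hρ : 0 < ρ) : ∃ g : ℝ → ℝ, Continuous g ∧
    (∀ α ∈ Ioo 0 (Real.pi / 2), HasDerivAt g
      (2 * hh b ρ / (hh b ρ ^ 2 - b ^ 2 * Real.cos α ^ 2) * Real.sin α ^ 2) α) ∧
    g (Real.pi / 2) - g 0 = Real.pi * (ww b ρ / sn b ρ) := by
  have hρ' := hρ.ne'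
  rcases eq_or_ne b 0 with rfl | hb
  · refine ⟨fun α => ρ * (α - Real.sin α * Real.cos α), by fun_prop, fun α _ => ?_, ?_⟩
    · refine (((hasDerivAt_id' α).sub
        ((Real.hasDerivAt_sin α).mul (Real.hasDerivAt_cos α))).const_mul ρ).congr_deriv ?_
      have e : 2 * hh 0 ρ / (hh 0 ρ ^ 2 - 0 ^ 2 * Real.cos α ^ 2) = 2 * ρ := by
        rw [chd_hh0]
        simp only [zero_pow two_ne_zero, zero_mul, sub_zero]
        field_simp
      rw [e]
      linear_combination (-ρ) * Real.sin_sq_add_cos_sq α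
    · rw [snx_ww0, snx_sn0]
      simp only [Real.cos_pi_div_two, Real.sin_zero]
      field_simp
      ring
  · have hc : 0 < cs b ρ := one_pos.trans_le (one_le_cs b ρ)
    have hs := (sn_pos b hρ).ne'
    have hh0 := (hh_pos b hρ).ne'
    obtain ⟨k, hk⟩ : ∃ k : ℝ, k = (cs b ρ)⁻¹ := ⟨_, rfl⟩
    have k0 : 0 < k := hk ▸ inv_pos.2 hc
    have k1 : hh b ρ ^ 2 * k ^ 2 = hh b ρ ^ 2 - b ^ 2 := by
      rw [sub_eq_of_eq_add' (hh_sq b hρ), hk, hh]
      field_simp
    have hU : Continuous (cnU k) :=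
      continuous_iff_continuousAt.2 fun α => (cnU_der k0 α).continuousAt
    refine ⟨fun α => 2 * hh b ρ / b ^ 2 * (α + k / 2 * Real.arccos (1 - 2 * cnU k α)),
      continuous_const.mul (continuous_id.add (continuous_const.mul
        (Real.continuous_arccos.comp (continuous_const.sub (continuous_const.mul hU))))),
      fun α hα => ?_, ?_⟩
    · refine (((hasDerivAt_id' α).add ((cnT_der k0 hα).const_mul (k / 2))).const_mul _).congr_deriv ?_
      have h1 := Real.sin_sq_add_cos_sq α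
      have e : hh b ρ ^ 2 - b ^ 2 * Real.cos α ^ 2 = hh b ρ ^ 2 * cnD k α := by
        unfold cnD
        linear_combination (-Real.cos α ^ 2) * k1 - hh b ρ ^ 2 * h1
      have e2 : hh b ρ ^ 2 * (cnD k α - k ^ 2) = b ^ 2 * Real.sin α ^ 2 := by
        unfold cnD
        linear_combination (-Real.sin α ^ 2) * k1 + hh b ρ ^ 2 * k ^ 2 * h1
      have hD := (cnD_pos k0 α).ne'
      rw [e]
      field_simp
      linear_combination e2
    · have e1 : cnU k (Real.pi / 2) = 0 := by simp [cnU]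
      have e2 : cnU k 0 = 1 := by simp [cnU, cnD, k0.ne']
      have e3 : ww b ρ = (cs b ρ - 1) / b ^ 2 := by rw [snx_ww hb, cs]
      simp only [e1, e2]
      rw [mul_zero, sub_zero, Real.arccos_one, show (1 : ℝ) - 2 * 1 = -1 by norm_num,
        Real.arccos_neg_one, e3, hk, hh]
      field_simp
      ring

theorem chd_cont (b : ℝ) (hρ : 0 < ρ) : ContinuousOn (chd b ρ) (Icc 0 1) := fun _ h =>
  (chd_der b hρ (pow_le_one₀ h.1 h.2)).continuousAt.continuousWithinAt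

theorem chd_lt (b : ℝ) (hρ : 0 < ρ) {β : ℝ} (h0 : 0 < β) (h1 : β ≤ 1) : 0 < chd b ρ β ∧
    hh b ρ * ww b (chd b ρ β) = sn b (chd b ρ β) * β ∧
      ∀ r, 0 < r → (hh b ρ * ww b r < sn b r * β ↔ r < chd b ρ β) := by
  obtain ⟨l₀, hl₀⟩ := exists_chord b hρ
  obtain ⟨l, l0, -, l1, l2, l3⟩ := hl₀ β h0 h1
  have h2 : β ^ 2 ≤ 1 := pow_le_one₀ h0.le h1
  have e : chd b ρ β = l := (strictMono_sn b).injective (by
    have := (chd_den b hρ h2).2.2.ne'
    have := h0.ne'
    rw [chd_sn b hρ h2, l2, wE]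
    field_simp)
  rw [e]
  exact ⟨l0, by rw [l1, l2, div_mul_cancel₀ _ h0.ne'], l3⟩

theorem chd_int (b : ℝ) (hρ : 0 < ρ) :
    ∫⁻ α in Ioo 0 (Real.pi / 2), ENNReal.ofReal (Real.cos α * chd b ρ (Real.cos α)) ≤
      ENNReal.ofReal (Real.pi * (ww b ρ / sn b ρ)) := by
  obtain ⟨g, gc, gd, ge⟩ := chd_prim b hρ
  have d1 : ∀ α, HasDerivAt (fun α => chd b ρ (Real.cos α))
      (2 * hh b ρ / (hh b ρ ^ 2 - b ^ 2 * Real.cos α ^ 2) * -Real.sin α) α := fun α =>
    (chd_der b hρ (Real.cos_sq_le_one α)).comp α (Real.hasDerivAt_cos α)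
  have c1 : Continuous fun α => chd b ρ (Real.cos α) * Real.sin α + g α :=
    ((continuous_iff_continuousAt.2 fun α => (d1 α).continuousAt).mul Real.continuous_sin).add gc
  have key := const_lint (f := fun α => chd b ρ (Real.cos α) * Real.sin α + g α)
    (f' := fun α => Real.cos α * chd b ρ (Real.cos α)) Real.pi_div_two_pos
    (fun α hα => (((d1 α).mul (Real.hasDerivAt_sin α)).add (gd α hα)).congr_deriv (by ring))
    (fun α hα => by
      have h1 : 0 < Real.cos α :=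
        Real.cos_pos_of_mem_Ioo ⟨by linarith [hα.1, Real.pi_pos], hα.2⟩
      exact (mul_pos h1 (chd_lt b hρ h1 (Real.cos_le_one α)).1).le)
    ((c1.tendsto 0).mono_left nhdsWithin_le_nhds)
    ((c1.tendsto (Real.pi / 2)).mono_left nhdsWithin_le_nhds)
  rw [key.2, Real.cos_pi_div_two, chd_zero b hρ, Real.sin_zero, zero_mul, mul_zero, zero_add,
    zero_add, ge]

end Vale.Agent.P219
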