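import Vale.Agent.P219.T.Defs

/-!
# Fubini and continuity  (TASK)

Bounded on the compact sets `UB G K ×ˢ K`, `K ×ˢ K` (as in `NDom.integrable_prod`; `volume.restrict S` is finite).  `cont_bb`: see the continuity of `Mc` in `G/Ray5` or `G/Core3`.
-/

namespace Vale.Agent.P219

open scoped ContDiff Topology RealInnerProductSpace ENNReal
open MeasureTheory Set Filter Vale.Agent.P255
open St (sn gmod)

variable {E : Type*} [NormedAddCommGroup E] [InnerProductSpace ℝ E] [FiniteDimensional ℝ E]
  [MeasurableSpace E] [BorelSpace E] {G : E → Bil E} {L : E → E → E} {K S : Set E} {b ρ ε : ℝ}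
  {τ : ℝ → ℝ} {x y e ν : E}

theorem swap_fin (hK : IsCompact K) (hSK : S ⊆ K) :
    IsFiniteMeasure ((volume : Measure E).restrict S) :=
  isFiniteMeasure_restrict.2 ((measure_mono hSK).trans_lt hK.measure_lt_top).ne

theorem swap_ae (hS : MeasurableSet S) (hSK : S ⊆ K) :
    ∀ᵐ x ∂((volume : Measure E).restrict S), x ∈ K :=
  (ae_restrict_mem hS).mono fun _ hx => hSK hx

theorem NDom.swap (hG : LocMetric G univ) (hK : IsCompact K) (D : NDom G K) {Φ : (E × E) × E → ℝ}
    (hΦ : Continuous Φ) : Integrable Φ (D.μ.prod (volume.restrict D.Ω)) ∧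
      ∫ z, (∫ x in D.Ω, Φ (z, x)) ∂D.μ = ∫ x in D.Ω, ∫ z, Φ (z, x) ∂D.μ := by
  have := swap_fin hK D.sub
  obtain ⟨C, hC⟩ := ((isCompact_UB hG hK).prod hK).exists_bound_of_continuousOn hΦ.continuousOn
  have h1 : Integrable Φ (D.μ.prod (volume.restrict D.Ω)) :=
    (integrable_const C).mono' hΦ.aestronglyMeasurable
      (((Measure.quasiMeasurePreserving_fst.ae D.supp).and
        (Measure.quasiMeasurePreserving_snd.ae (swap_ae D.meas D.sub))).mono fun z hz => hC z hz)
  exact ⟨h1, integral_integral_swap (f := fun z x => Φ (z, x)) h1⟩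

theorem two_int (hK : IsCompact K) (hS : MeasurableSet S) (hSK : S ⊆ K) {Φ : E × E → ℝ}
    (hΦ : Continuous Φ) : Integrable Φ ((volume.restrict S).prod (volume.restrict S)) := by
  have := swap_fin hK hSK
  obtain ⟨C, hC⟩ := (hK.prod hK).exists_bound_of_continuousOn hΦ.continuousOn
  exact (integrable_const C).mono' hΦ.aestronglyMeasurable
    (((Measure.quasiMeasurePreserving_fst.ae (swap_ae hS hSK)).and
      (Measure.quasiMeasurePreserving_snd.ae (swap_ae hS hSK))).mono fun z hz => hC z hz)

theorem two_int1 (hK : IsCompact K) (hSK : S ⊆ K) {f : E → ℝ} (hf : Continuous f) :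
    IntegrableOn f S := (hf.continuousOn.integrableOn_compact hK).mono_set hSK

variable {T : Type*} [TopologicalSpace T] {p q u w : T → E}

theorem cont_lap (hP : Pack G L) (hp : Continuous p) (hq : Continuous q) :
    ContinuousOn (fun t => lap G L (p t) (q t)) {t | p t ≠ q t} := by
  have h : Continuous fun t => hs G L (p t) (q t) := hP.contDiff_hs.continuous.comp (hp.prodMk hq)
  exact ((continuous_trc.comp h).sub continuous_const).continuousOn.div
    (cont_r hP hp hq).continuousOn (cont_ne hP)

theorem cont_trS (hP : Pack G L) (hp : Continuous p) (hq : Continuous q) :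
    Continuous fun t => trS L (p t) (q t) :=
  continuous_trc.comp ((cont_D hP hp hq).clm_comp (cont_D hP hq hp))

theorem cont_bb (hP : Pack G L) (hp : Continuous p) (hq : Continuous q) (hu : Continuous u)
    (hw : Continuous w) :
    ContinuousOn (fun t => bb G L (p t) (u t) (q t) (w t)) {t | p t ≠ q t} := by
  have hi : Continuous fun t => (fderiv ℝ (L (p t)) (q t)).inverse :=
    continuous_iff_continuousAt.2 fun t => ContinuousAt.comp (g := ContinuousLinearMap.inverse)
      ((isInvertible_of_det (hP.det_ne (p t) (q t))).contDiffAt_map_inverse (n := 0)).continuousAt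
      (cont_D hP hp hq).continuousAt
  have hG := ((contDiffOn_univ.1 hP.loc.smooth).continuous.comp hq).clm_apply hw
  have hr := (cont_r hP hp hq).continuousOn (s := {t | p t ≠ q t})
  exact (((hG.continuousOn.clm_apply (hi.continuousOn.clm_apply (hu.neg.continuousOn.sub
    (((cont_ca hP hp hq hu).div hr (cont_ne hP)).smul (cont_L hP hp hq).continuousOn)))).mul
      (cont_jac hP hp hq).continuousOn).div ((contDiff_wt hP.loc).continuous.comp hq).continuousOn
        fun _ _ => (wt_pos (posB_of_loc hP.loc _)).ne').neg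

end Vale.Agent.P219
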