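import Vale.Agent.P219.T.Rad
import Vale.Agent.P219.T.Swap

/-!
# Limits

`tendsto_integral_of_dominated_convergence`.  `lim_KK`: for `x ∈ S` the value is eventually `2 om` (`KK_eq`; `{y | rr x y ≤ ε} ⊆ S` for small `ε` by `dist_cmp` and `nbhd`, or by `cos`/compactness), `KK_mem`;
measurability: `Integrable.integral_prod_left` of `two_int`.  `lim_PP`: twice (or once on the product, `integral_prod`); `τ k r = 1` eventually for `r > 0`, and `y ≠ x` a.e. (`Measure.ae_ne`).
-/

namespace Vale.Agent.P219

open scoped ContDiff Topology RealInnerProductSpace ENNReal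
open MeasureTheory Set Filter Vale.Agent.P255
open St (sn gmod)

variable {E : Type*} [NormedAddCommGroup E] [InnerProductSpace ℝ E] [FiniteDimensional ℝ E]
  [MeasurableSpace E] [BorelSpace E] {G : E → Bil E} {L : E → E → E} {K S : Set E} {b ρ ε : ℝ}
  {τ : ℝ → ℝ} {x y e ν : E}

theorem lim_eps {r : ℝ} (hr : 0 < r) : ∀ᶠ k : ℕ in atTop, (1 : ℝ) / (k + 1) < r :=
  (tendsto_one_div_add_atTop_nhds_zero_nat (𝕜 := ℝ)).eventually (gt_mem_nhds hr)

theorem PackK.lim_KK (hE : Module.finrank ℝ E = 1 + 1) (hP : PackK b G L) (hK : IsCompact K)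
    (hS : IsOpen S) (hSK : S ⊆ K) {t : ℕ → ℝ → ℝ} (ht : ∀ k, Cut (t k) (1 / (k + 1))) :
    Tendsto (fun k => ∫ x in S, KK G L (t k) S x * wt (G x)) atTop (𝓝 (2 * om E * vol G S)) := by
  have hw : Continuous fun y => wt (G y) := (contDiff_wt hP.loc).continuous
  have hwp : ∀ y, 0 < wt (G y) := fun y => wt_pos (posB_of_loc hP.loc y)
  rw [vol, ← integral_const_mul]
  refine tendsto_integral_of_dominated_convergence (fun x => 2 * om E * wt (G x)) (fun k => ?_)
    (two_int1 hK hSK (continuous_const.mul hw)) (fun k => Eventually.of_forall fun x => ?_) ?_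
  · obtain ⟨α, hα, h0⟩ := (ht k).zero'
    have hd : Continuous (deriv (t k)) := (ht k).smooth.continuous_deriv (by norm_num)
    have hc : Continuous fun z : E × E => deriv (t k) (rr G L z.1 z.2) *
        (jac G L z.1 z.2 / rr G L z.1 z.2) :=
      hP.toPack.cont_cut continuous_fst continuous_snd
        ((cont_jac hP.toPack continuous_fst continuous_snd).continuousOn.div
          (cont_r hP.toPack continuous_fst continuous_snd).continuousOn (cont_ne hP.toPack))
        hd hα fun r hr => (h0 r hr).2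
    have hi := (two_int hK hS.measurableSet hSK hc).integral_prod_left.aestronglyMeasurable
    refine AEStronglyMeasurable.mul ?_ hw.aestronglyMeasurable
    refine hi.congr (Eventually.of_forall fun x => ?_)
    simp only [KK, mul_div_assoc]
  · obtain ⟨h1, h2⟩ := hP.toPack.KK_mem hE (ht k) hS.measurableSet x
    rw [Real.norm_eq_abs, abs_of_nonneg (mul_nonneg h1 (hwp x).le)]
    exact mul_le_mul_of_nonneg_right h2 (hwp x).le
  · obtain ⟨K', hK', hKK, hn⟩ := hP.toPack.nbhd hK 1
    obtain ⟨C, hC, hd⟩ := hP.toPack.dist_cmp hK'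
    filter_upwards [ae_restrict_mem hS.measurableSet] with x hx
    obtain ⟨δ, hδ, hb⟩ := Metric.isOpen_iff.1 hS x hx
    refine tendsto_const_nhds.congr' ?_
    filter_upwards [lim_eps (div_pos hδ hC), lim_eps one_pos] with k hk hk1
    rw [hP.KK_eq hE (ht k) hS.measurableSet fun y hy => hb ?_]
    have hy' : y ∈ K' := hn x (hSK hx) y (by rw [hP.toPack.rr_symm]; exact hy.trans hk1.le)
    have h1 := (hd x (hKK (hSK hx)) y hy').1
    have h2 : C * rr G L x y < δ := by
      rw [mul_comm, ← lt_div_iff₀ hC]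
      exact hy.trans_lt hk
    rw [Metric.mem_ball, dist_comm, dist_eq_norm]
    exact h1.trans_lt h2

theorem lim_ae (hE : Module.finrank ℝ E = 1 + 1) (S : Set E) :
    ∀ᵐ z : E × E ∂(volume.restrict S).prod (volume.restrict S), z.1 ≠ z.2 := by
  have : Nontrivial E := Module.nontrivial_of_finrank_eq_succ hE
  have hm : MeasurableSet {z : E × E | z.1 ≠ z.2} :=
    (isOpen_ne_fun continuous_fst continuous_snd).measurableSet
  refine (Measure.ae_prod_iff_ae_ae hm).2 (Eventually.of_forall fun x => ?_)
  filter_upwards [(volume.restrict S).ae_ne x] with y hy using hy.symm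

/-- The integrand of `PP` on the product. -/
noncomputable def limF (G : E → Bil E) (L : E → E → E) (τ : ℝ → ℝ) (g : E → E → ℝ) (z : E × E) : ℝ :=
  τ (rr G L z.1 z.2) * g z.1 z.2 * wt (G z.2) * wt (G z.1)

theorem lim_meas (hE : Module.finrank ℝ E = 1 + 1) (hP : Pack G L) (hτ : Continuous τ)
    {g : E → E → ℝ} (hg : ContinuousOn (fun z : E × E => g z.1 z.2) {z | z.1 ≠ z.2}) :
    AEStronglyMeasurable (limF G L τ g) ((volume.restrict S).prod (volume.restrict S)) := by
  have hw : Continuous fun y => wt (G y) := (contDiff_wt hP.loc).continuous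
  have hm : MeasurableSet {z : E × E | z.1 ≠ z.2} :=
    (isOpen_ne_fun continuous_fst continuous_snd).measurableSet
  have h1 := hg.aestronglyMeasurable (μ := (volume.restrict S).prod (volume.restrict S)) hm
  rw [Measure.restrict_eq_self_of_ae_mem (s := {z : E × E | z.1 ≠ z.2}) (lim_ae hE S)] at h1
  exact (((hτ.comp (cont_r hP continuous_fst continuous_snd)).aestronglyMeasurable.mul h1).mul
    (hw.comp continuous_snd).aestronglyMeasurable).mul (hw.comp continuous_fst).aestronglyMeasurable

theorem lim_bd (hE : Module.finrank ℝ E = 1 + 1) (hP : Pack G L) (h1 : ∀ r, |τ r| ≤ 1)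
    {g : E → E → ℝ} (hb : ∀ x y, x ≠ y → |g x y| ≤ 1) :
    ∀ᵐ z ∂(volume.restrict S).prod (volume.restrict S),
      ‖limF G L τ g z‖ ≤ wt (G z.2) * wt (G z.1) := by
  have hwp : ∀ y, 0 < wt (G y) := fun y => wt_pos (posB_of_loc hP.loc y)
  filter_upwards [lim_ae hE S] with z hz
  rw [limF, Real.norm_eq_abs, mul_assoc, abs_mul, abs_mul,
    abs_of_pos (mul_pos (hwp z.2) (hwp z.1))]
  exact mul_le_of_le_one_left (mul_pos (hwp z.2) (hwp z.1)).le
    (mul_le_one₀ (h1 _) (abs_nonneg _) (hb _ _ hz))

theorem lim_int (hP : Pack G L) (hK : IsCompact K) (hS : MeasurableSet S) (hSK : S ⊆ K) :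
    Integrable (fun z : E × E => wt (G z.2) * wt (G z.1))
      ((volume.restrict S).prod (volume.restrict S)) := by
  have hw : Continuous fun y => wt (G y) := (contDiff_wt hP.loc).continuous
  exact two_int hK hS hSK ((hw.comp continuous_snd).mul (hw.comp continuous_fst))

theorem lim_eq {g : E → E → ℝ}
    (h : Integrable (limF G L τ g) ((volume.restrict S).prod (volume.restrict S))) :
    PP G L τ g S = ∫ z, limF G L τ g z ∂(volume.restrict S).prod (volume.restrict S) := by
  rw [integral_prod _ h, PP]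
  simp only [limF, integral_mul_const]

theorem Pack.lim_PP (hE : Module.finrank ℝ E = 1 + 1) (hP : Pack G L) (hK : IsCompact K)
    (hS : MeasurableSet S) (hSK : S ⊆ K) {t : ℕ → ℝ → ℝ} (ht : ∀ k, Cut (t k) (1 / (k + 1)))
    {g : E → E → ℝ} (hg : ContinuousOn (fun z : E × E => g z.1 z.2) {z | z.1 ≠ z.2})
    (hb : ∀ x y, x ≠ y → |g x y| ≤ 1) :
    Tendsto (fun k => PP G L (t k) g S) atTop (𝓝 (PP G L (fun _ => 1) g S)) := by
  have hi := lim_int hP hK hS hSK
  have ha : ∀ k r, |t k r| ≤ 1 := fun k r => by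
    rw [abs_of_nonneg ((ht k).nonneg r).1]
    exact ((ht k).nonneg r).2.1
  have hm : ∀ k, AEStronglyMeasurable (limF G L (t k) g)
      ((volume.restrict S).prod (volume.restrict S)) :=
    fun k => lim_meas hE hP (ht k).smooth.continuous hg
  have h1 := hi.mono' (lim_meas (τ := fun _ => 1) hE hP continuous_const hg)
    (lim_bd hE hP (fun _ => by simp) hb)
  have h2 : ∀ k, PP G L (t k) g S = _ := fun k =>
    lim_eq (hi.mono' (hm k) (lim_bd hE hP (ha k) hb))
  simp only [h2]
  rw [lim_eq h1]
  refine tendsto_integral_of_dominated_convergence _ hm hi (fun k => lim_bd hE hP (ha k) hb) ?_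
  filter_upwards [lim_ae hE S] with z hz
  refine tendsto_const_nhds.congr' ?_
  filter_upwards [lim_eps (hP.rr_pos (Ne.symm hz))] with k hk
  simp only [limF, (ht k).one _ hk.le]

theorem PP_one (G : E → Bil E) (L : E → E → E) (S : Set E) :
    PP G L (fun _ => 1) (fun _ _ => 1) S = vol G S ^ 2 := by
  simp only [PP, vol, one_mul, integral_const_mul, sq]

theorem PackK.PP_le (hE : Module.finrank ℝ E = 1 + 1) (hP : PackK b G L) (hK : IsCompact K)
    (hS : MeasurableSet S) (hSK : S ⊆ K) : PP G L (fun _ => 1) (iota 1 b G L) S ≤ vol G S ^ 2 := by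
  have hi := lim_int hP.toPack hK hS hSK
  have hb : ∀ x y, x ≠ y → |iota 1 b G L x y| ≤ 1 := fun x y h => by
    rw [abs_of_nonneg (hP.toPack.iota_nonneg x y)]
    exact hP.iota_le_one hE h
  have h0 := lim_bd (S := S) (τ := fun _ => 1) hE hP.toPack (fun _ => by simp) hb
  have h1 := hi.mono' (lim_meas (τ := fun _ => 1) hE hP.toPack continuous_const
    hP.toPack.continuousOn_iota) h0
  have h2 : Integrable (limF G L (fun _ => 1) (fun _ _ => 1))
      ((volume.restrict S).prod (volume.restrict S)) :=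
    hi.congr (Eventually.of_forall fun z => by simp only [limF, one_mul])
  rw [← PP_one G L S, lim_eq h1, lim_eq h2]
  refine integral_mono_ae h1 h2 ?_
  filter_upwards [h0] with z hz
  refine ((le_abs_self _).trans hz).trans_eq ?_
  simp only [limF, one_mul]

end Vale.Agent.P219
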