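import Vale.Agent.P219.T.Chd

/-!
# The ray bound

`ray_euc` with `m = 1`, `φ = tF b ρ`, `φr = tFr b ρ`, `Φ β = β * chd b ρ β`, `Dd = {(r, β) | 0 < r ∧ hh ww r < sn r * β}` (or without `0 < r`), `R = π ww ρ / sn ρ`; `sn r * tFr = (cs r + 1) * (sn r * β - hh * ww r)` since
`sn² = ww (cs + 1)`; `tF = β r + (sn r * β - hh * ww r)`.  `cm E 1 * R = Am - hh * Vm` (`cm_mul_Sm`, `Sm 1 = π`, `Vm = 2 om ww ρ`).  Change of variables as in `Pack.ray`; `tD_ae` as `Pack.dfc_ae`.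
-/

namespace Vale.Agent.P219

open scoped ContDiff Topology RealInnerProductSpace ENNReal
open MeasureTheory Set Filter Vale.Agent.P255
open St (sn gmod)

variable {E : Type*} [NormedAddCommGroup E] [InnerProductSpace ℝ E] [FiniteDimensional ℝ E]
  [MeasurableSpace E] [BorelSpace E] {G : E → Bil E} {L : E → E → E} {K S : Set E} {b ρ ε : ℝ}
  {τ : ℝ → ℝ} {x y e ν : E}

theorem Vm_two (o b ρ : ℝ) : Vm o 1 b ρ = 2 * o * ww b ρ := by
  have h : ∫ t in (0 : ℝ)..ρ, sn b t ^ 1 = ww b ρ - ww b 0 := by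
    simp only [pow_one]
    exact intervalIntegral.integral_eq_sub_of_hasDerivAt (fun x _ => hasDerivAt_ww b x)
      ((contDiff_sn b).continuous.intervalIntegrable _ _)
  rw [Vm, h, ww_zero, sub_zero, Nat.cast_one, one_add_one_eq_two]

theorem tray_mul (b ρ r β : ℝ) :
    sn b r * tFr b ρ r β = (cs b r + 1) * (sn b r * β - hh b ρ * ww b r) := by
  rw [tFr, cs_eq]
  linear_combination (-hh b ρ) * sn_sq b r

theorem tray_pos {r β : ℝ} (hr : 0 < r) (h : hh b ρ * ww b r < sn b r * β) : 0 < tFr b ρ r β := by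
  refine (mul_pos_iff_of_pos_left (sn_pos b hr)).1 ?_
  rw [tray_mul]
  exact mul_pos (by linarith [one_le_cs b r]) (sub_pos.2 h)

theorem tray_neg {r β : ℝ} (hr : 0 < r) (h : sn b r * β ≤ hh b ρ * ww b r) : tFr b ρ r β ≤ 0 := by
  refine le_of_mul_le_mul_left ?_ (sn_pos b hr)
  rw [mul_zero, tray_mul]
  exact mul_nonpos_of_nonneg_of_nonpos (by linarith [one_le_cs b r]) (sub_nonpos.2 h)

theorem tray_cF (b ρ : ℝ) : Continuous fun z : ℝ × ℝ => tF b ρ z.1 z.2 :=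
  (continuous_snd.mul (((contDiff_sn b).continuous.comp continuous_fst).add continuous_fst)).sub
    (continuous_const.mul ((contDiff_ww b).continuous.comp continuous_fst))

theorem tray_cFr (b ρ : ℝ) : Continuous fun z : ℝ × ℝ => tFr b ρ z.1 z.2 :=
  (continuous_snd.mul (((contDiff_cs b).continuous.comp continuous_fst).add continuous_const)).sub
    (continuous_const.mul ((contDiff_sn b).continuous.comp continuous_fst))

theorem tray_const (b : ℝ) (hρ : 0 < ρ) : cm E 1 * (Real.pi * (ww b ρ / sn b ρ)) =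
    Am (om E) 1 b ρ - hh b ρ * Vm (om E) 1 b ρ := by
  have h1 : Sm 1 = Real.pi := by simp [Sm]
  have h2 := cm_mul_Sm (E := E) 1
  have h3 := (sn_pos b hρ).ne'
  rw [h1] at h2
  rw [← mul_assoc, h2, Vm_two, Am, hh, cs_eq]
  field_simp
  push_cast
  linear_combination (-2 * om E) * sn_sq b ρ

theorem tray_euc (hE : Module.finrank ℝ E = 1 + 1) (b : ℝ) (hρ : 0 < ρ) (hτ : Cut τ ε)
    (he : ‖e‖ = 1) (hS : MeasurableSet S) (hb : Bornology.IsBounded S) {I : ℝ}
    (hI : I = ∫ v in S, (deriv τ ‖v‖ * tF b ρ ‖v‖ (⟪e, v⟫ / ‖v‖) +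
      τ ‖v‖ * tFr b ρ ‖v‖ (⟪e, v⟫ / ‖v‖)) / ‖v‖ ^ 1) :
    I ≤ Am (om E) 1 b ρ - hh b ρ * Vm (om E) 1 b ρ ∧
      ∫⁻ v in {v : E | v ∉ S ∧ hh b ρ * ww b ‖v‖ < sn b ‖v‖ * (⟪e, v⟫ / ‖v‖) ∧ ε ≤ ‖v‖},
        ENNReal.ofReal (tFr b ρ ‖v‖ (⟪e, v⟫ / ‖v‖) / ‖v‖ ^ 1) ≤
        ENNReal.ofReal (Am (om E) 1 b ρ - hh b ρ * Vm (om E) 1 b ρ - I) := by
  have hh0 := hh_pos b hρ
  rw [hI, ← tray_const b hρ]
  refine ray_euc hE le_rfl he (φ := tF b ρ) (φr := tFr b ρ) (Φ := fun β => β * chd b ρ β)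
    (Dd := {z | hh b ρ * ww b z.1 < sn b z.1 * z.2}) hτ
    (isOpen_lt (continuous_const.mul ((contDiff_ww b).continuous.comp continuous_fst))
      (((contDiff_sn b).continuous.comp continuous_fst).mul continuous_snd)).measurableSet
    (continuousOn_id.mul ((chd_cont b hρ).mono Ioc_subset_Icc_self)) (tray_cF b ρ).continuousOn
    (tray_cFr b ρ).continuousOn
    (fun r β _ => (((hasDerivAt_sn b r).add (hasDerivAt_id' r)).const_mul β).sub
      ((hasDerivAt_ww b r).const_mul (hh b ρ)))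
    (fun β h0 h1 => ?_) (fun β h1 h0 r hr => ?_)
    (mul_pos Real.pi_pos (div_pos (ww_pos b hρ) (sn_pos b hρ))).le
    (by simpa only [Nat.sub_self, pow_zero, mul_one] using chd_int b hρ) hS hb
  · obtain ⟨l0, l1, l3⟩ := chd_lt b hρ h0 h1
    refine ⟨chd b ρ β, l0, by rw [tF, l1]; ring, fun r hr => ⟨l3 r hr, fun k => ?_, fun k => ?_,
      fun k => ?_⟩⟩
    · have h2 : hh b ρ * ww b r ≤ sn b r * β := by
        rcases k.eq_or_lt with rfl | k
        · exact l1.le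
        · exact ((l3 r hr).2 k).le
      have h3 := mul_pos h0 hr
      rw [tF]
      linarith
    · exact (tray_pos hr ((l3 r hr).2 k)).le
    · exact tray_neg hr (not_lt.1 fun k' => k.not_gt ((l3 r hr).1 k'))
  · have h2 := mul_nonpos_of_nonneg_of_nonpos (sn_pos b hr).le h0
    have h4 := mul_nonpos_of_nonneg_of_nonpos hr.le h0
    have h5 := mul_pos hh0 (ww_pos b hr)
    have h3 : sn b r * β ≤ hh b ρ * ww b r := h2.trans h5.le
    refine ⟨h3.not_gt, ?_, tray_neg hr h3⟩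
    rw [tF]
    linarith

theorem Pack.two_ray (hE : Module.finrank ℝ E = 1 + 1) (hP : Pack G L) (hK : IsCompact K) (hρ : 0 < ρ)
    (hτ : Cut τ ε) (hS : MeasurableSet S) (hSK : S ⊆ K) (hν : G y ν ν = 1) :
    tI b ρ G L τ S y ν ≤ Am (om E) 1 b ρ - hh b ρ * Vm (om E) 1 b ρ ∧
      tD b ρ G L S y ν ε ≤
        ENNReal.ofReal (Am (om E) 1 b ρ - hh b ρ * Vm (om E) 1 b ρ - tI b ρ G L τ S y ν) := by
  obtain ⟨P, h1, h2, h3⟩ := hP.chg y
  have hd := hP.diffeo y P
  have hn : ∀ x, ‖P (L y x)‖ = rr G L y x := fun x => by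
    rw [rr, qq, h1, real_inner_self_eq_norm_sq, Real.sqrt_sq (norm_nonneg _)]
  have ha : ∀ x, ⟪-P ν, P (L y x)⟫ / rr G L y x = ca G L y x ν := fun x => by
    rw [ca, h1, inner_neg_left]
  have he : ‖-P ν‖ = 1 := by
    rw [h1, real_inner_self_eq_norm_sq] at hν
    rw [norm_neg, ← sq_eq_sq₀ (norm_nonneg _) zero_le_one, hν, one_pow]
  obtain ⟨k1, k2⟩ := tray_euc hE b hρ hτ he (hd.measurableSet_image hS)
    ((hK.image hd.smooth.continuous).isBounded.subset (image_mono hSK))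
    (I := tI b ρ G L τ S y ν) (by
      rw [(h3 _ hS _).1]
      simp only [hn, ha]
      refine integral_congr_ae (ae_of_all _ fun x => ?_)
      simp only [jac]
      ring)
  refine ⟨k1, le_trans ?_ k2⟩
  refine le_trans (le_of_eq ?_) (lintegral_mono_set (s := (fun x => P (L y x)) ''
    {x | x ∉ S ∧ hh b ρ * ww b (rr G L y x) < sn b (rr G L y x) * ca G L y x ν ∧
      ε ≤ rr G L y x}) ?_)
  · rw [lintegral_image_eq_lintegral_abs_det_fderiv_mul volume (ray2_meas hP hS y ν b ρ ε)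
      (push_deriv hd _) hd.inj.injOn, tD]
    refine lintegral_congr fun x => ?_
    rw [← ENNReal.ofReal_mul (abs_nonneg _), chg_det, abs_mul, ← h2, hn, ha, jac]
    exact congrArg _ (by ring)
  · rintro _ ⟨x, ⟨a1, a2, a3⟩, rfl⟩
    refine ⟨fun k => a1 (hd.inj.mem_set_image.1 k), ?_⟩
    simp only [hn, ha]
    exact ⟨a2, a3⟩

theorem tD_anti (S : Set E) (y ν : E) {ε ε' : ℝ} (h : ε ≤ ε') :
    tD b ρ G L S y ν ε' ≤ tD b ρ G L S y ν ε :=
  lintegral_mono_set fun _ hx => ⟨hx.1, hx.2.1, h.trans hx.2.2⟩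

theorem Pack.tD_ae (hP : Pack G L) (hS : MeasurableSet S)
    (h : ∀ k : ℕ, tD b ρ G L S y ν (1 / (k + 1)) = 0) :
    ∀ᵐ x, hh b ρ * ww b (rr G L y x) < sn b (rr G L y x) * ca G L y x ν → x ∈ S := by
  have h1 : ContinuousOn (fun x => ENNReal.ofReal (tFr b ρ (rr G L y x) (ca G L y x ν) *
      jac G L y x / rr G L y x)) {x | y ≠ x} := by
    have k := (cont_r hP (continuous_const (y := y)) continuous_id).continuousOn (s := {x | y ≠ x})
    exact ENNReal.continuous_ofReal.comp_continuousOn ((((tray_cFr b ρ).comp_continuousOn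
      (k.prodMk (cont_ca hP continuous_const continuous_id continuous_const))).mul
      (cont_jac hP continuous_const continuous_id).continuousOn).div k
      fun x hx => (hP.rr_pos (Ne.symm hx)).ne')
  have h2 : ∀ k : ℕ, ∀ᵐ x, x ∉ {x | x ∉ S ∧
      hh b ρ * ww b (rr G L y x) < sn b (rr G L y x) * ca G L y x ν ∧
      1 / ((k : ℝ) + 1) ≤ rr G L y x} := fun k => by
    have hM := ray2_meas hP hS y ν b ρ (1 / (k + 1))
    have h3 := (lintegral_eq_zero_iff' ((h1.mono fun x hx => hP.ne_of_rr_pos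
      (Nat.one_div_pos_of_nat.trans_le hx.2.2)).aemeasurable hM)).1 (h k)
    filter_upwards [(ae_restrict_iff' hM).1 h3] with x hx hx'
    have hr : 0 < rr G L y x := Nat.one_div_pos_of_nat.trans_le hx'.2.2
    exact (ENNReal.ofReal_pos.2 (div_pos (mul_pos (tray_pos hr hx'.2.1) (hP.jac_pos y x))
      hr)).ne' (hx hx')
  filter_upwards [ae_all_iff.2 h2] with x hx hx'
  have hr : 0 < rr G L y x := (rr_nonneg G L y x).lt_of_ne fun e => by
    rw [← e, ww_zero, sn_zero, mul_zero, zero_mul] at hx'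
    exact hx'.false
  obtain ⟨k, hk⟩ := exists_nat_one_div_lt hr
  exact by_contra fun a => hx k ⟨a, hx', hk.le⟩

end Vale.Agent.P219
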