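import Vale.Agent.P219.T.R2
import Vale.Agent.P219.T.Lim
import Vale.Agent.P219.T.Ray

/-!
# The inequality and a good boundary point in dimension two  (TASK)

`two_lim`: `two_main` along `t k` (`exists_cut`), `lim_KK`, `lim_PP`, `PP_one`, `le_of_tendsto_of_tendsto'`.  `Am² = 4 om Vm + b² Vm²` (`Vm_two`, `sn_sq`).  `rigid2`: `PP ι = V²` by `two_lim`, `PP_le`;
`ineq_ae` with `f z = Am - hh Vm - tI`, `two_ray`, `tD_anti`, `two_I`; the end as in `rigid_gen`.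
-/

namespace Vale.Agent.P219

open scoped ContDiff Topology RealInnerProductSpace ENNReal
open MeasureTheory Set Filter Vale.Agent.P255
open St (sn gmod)

variable {E : Type*} [NormedAddCommGroup E] [InnerProductSpace ℝ E] [FiniteDimensional ℝ E]
  [MeasurableSpace E] [BorelSpace E] {G : E → Bil E} {L : E → E → E} {K S : Set E} {b ρ ε : ℝ}
  {τ : ℝ → ℝ} {x y e ν : E}

theorem tcore_cut : ∃ t : ℕ → ℝ → ℝ, ∀ k, Cut (t k) (1 / (k + 1)) := by
  have h : ∀ k : ℕ, ∃ τ, Cut τ (1 / (k + 1)) := fun k => by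
    have h0 : (0 : ℝ) < 1 / (k + 1) := by positivity
    obtain ⟨τ, h1, -⟩ := exists_cut (half_pos h0) (half_lt_self h0)
    exact ⟨τ, h1⟩
  exact ⟨fun k => (h k).choose, fun k => (h k).choose_spec⟩

theorem tcore_sq (o b ρ : ℝ) : Am o 1 b ρ ^ 2 = 4 * o * Vm o 1 b ρ + b ^ 2 * Vm o 1 b ρ ^ 2 := by
  rw [Vm_two, Am, pow_one, mul_pow, sn_sq]
  push_cast
  ring

theorem tcore_iota (hE : Module.finrank ℝ E = 1 + 1) (hP : PackK b G L) (hK : IsCompact K)
    (D : NDom G K) {t : ℕ → ℝ → ℝ} (ht : ∀ k, Cut (t k) (1 / (k + 1))) :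
    Tendsto (fun k => PP G L (t k) (iota 1 b G L) D.Ω) atTop
      (𝓝 (PP G L (fun _ => 1) (iota 1 b G L) D.Ω)) :=
  hP.toPack.lim_PP hE hK D.meas D.sub ht hP.toPack.continuousOn_iota fun x y h => by
    rw [abs_of_nonneg (hP.toPack.iota_nonneg x y)]
    exact hP.iota_le_one hE h

theorem PackK.two_lim (hE : Module.finrank ℝ E = 1 + 1) (hP : PackK b G L) (hK : IsCompact K) :
    ∃ c : ℝ, 0 < c ∧ ∀ D : NDom G K, IsOpen D.Ω → 4 * om E * D.V + b ^ 2 * D.V ^ 2 +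
      c * (D.V ^ 2 - PP G L (fun _ => 1) (iota 1 b G L) D.Ω) ≤ D.A ^ 2 := by
  obtain ⟨C, c, -, hc, h⟩ := hP.two_main hE hK
  obtain ⟨t, ht⟩ := tcore_cut
  refine ⟨c, hc, fun D ho => ?_⟩
  have h1 := hP.lim_KK hE hK ho D.sub ht
  have h2 := hP.toPack.lim_PP hE hK D.meas D.sub ht (g := fun _ _ => 1) continuousOn_const
    fun _ _ _ => abs_one.le
  rw [PP_one] at h2
  have h3 := tcore_iota hE hP hK D ht
  have h4 := ((tendsto_one_div_add_atTop_nhds_zero_nat.const_mul C).mul_const D.A).const_add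
    (D.A ^ 2)
  have h5 := le_of_tendsto_of_tendsto' (((h1.const_mul 2).add (h2.const_mul (b ^ 2 + c))).sub
    (h3.const_mul c)) h4 fun k => h D (t k) _ (ht k)
  rw [NDom.V]
  linarith

theorem PackK.ineq2 (hE : Module.finrank ℝ E = 1 + 1) (hP : PackK b G L) (hK : IsCompact K)
    (D : NDom G K) (ho : IsOpen D.Ω) : Ipr (om E) 1 b D.V ≤ D.A := by
  obtain ⟨c, hc, h⟩ := hP.two_lim hE hK
  have h1 := h D ho
  have h2 := mul_nonneg hc.le (sub_nonneg.2 (hP.PP_le hE hK D.meas D.sub))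
  have h3 := tcore_sq (om E) b (rad (om E) 1 b D.V)
  rw [(rad_spec om_pos D.V_nonneg).2] at h3
  refine (abs_le_of_sq_le_sq' ?_ D.A_nonneg).2
  rw [Ipr, h3]
  rw [NDom.V] at h1 ⊢
  linarith

theorem PackK.rigid2 (hE : Module.finrank ℝ E = 1 + 1) (hP : PackK b G L) (hK : IsCompact K)
    (D : NDom G K) (ho : IsOpen D.Ω) (hρ : 0 < ρ) (hV : D.V = Vm (om E) 1 b ρ)
    (hA : D.A = Am (om E) 1 b ρ) : ∃ y ν, G y ν ν = 1 ∧
      ∀ᵐ x, hh b ρ * ww b (rr G L y x) < sn b (rr G L y x) * ca G L y x ν → x ∈ D.Ω := by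
  obtain ⟨c, hc, h⟩ := hP.two_lim hE hK
  obtain ⟨C, -, hI⟩ := hP.two_I hE hK hρ
  obtain ⟨t, ht⟩ := tcore_cut
  have h1 := h D ho
  have h2 := tcore_sq (om E) b ρ
  rw [← hV, ← hA] at h2
  have h3 : D.V ^ 2 ≤ PP G L (fun _ => 1) (iota 1 b G L) D.Ω := by
    by_contra h4
    have := mul_pos hc (sub_pos.2 (not_le.1 h4))
    linarith
  have h4 := (((hP.lim_KK hE hK ho D.sub ht).const_mul 2).add
    ((tcore_iota hE hP hK D ht).const_mul (b ^ 2))).sub
    ((tendsto_one_div_add_atTop_nhds_zero_nat.const_mul C).mul_const D.A)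
  have h5 : ∀ᵐ z ∂D.μ, ∀ k : ℕ, tD b ρ G L D.Ω z.1 z.2 (1 / (k + 1)) = 0 := ae_all_iff.2 fun k =>
    ineq_ae fun l hl => by
      have h6 : D.A ^ 2 - l < 2 * (2 * om E * vol G D.Ω) +
          b ^ 2 * PP G L (fun _ => 1) (iota 1 b G L) D.Ω - C * 0 * D.A := by
        have := mul_le_mul_of_nonneg_left h3 (sq_nonneg b)
        rw [NDom.V] at h2 this
        linarith
      obtain ⟨j, hj1, hj2⟩ := ((h4.eventually (lt_mem_nhds h6)).and (eventually_ge_atTop k)).exists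
      have hj3 : (1 : ℝ) / (j + 1) ≤ 1 / (k + 1) :=
        one_div_le_one_div_of_le (by positivity) (by exact_mod_cast Nat.succ_le_succ hj2)
      have hj4 : (1 : ℝ) / (j + 1) ≤ 1 := by
        rw [div_le_one (by positivity)]
        linarith [(Nat.cast_nonneg j : (0 : ℝ) ≤ j)]
      obtain ⟨h7, h8⟩ := hI D (t j) _ (ht j) hj4
      refine ⟨fun z => Am (om E) 1 b ρ - hh b ρ * Vm (om E) 1 b ρ - tI b ρ G L (t j) D.Ω z.1 z.2,
        (integrable_const _).sub h7, D.supp.mono fun z hz => ?_, ?_⟩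
      · have h9 := hP.toPack.two_ray (b := b) hE hK hρ (ht j) D.meas D.sub hz.2
        exact ⟨sub_nonneg.2 h9.1, (tD_anti _ _ _ hj3).trans h9.2⟩
      · rw [integral_sub (integrable_const _) h7, integral_const, smul_eq_mul, ← hV, ← hA]
        change D.A * (D.A - hh b ρ * D.V) - _ ≤ l
        linarith
  have hne : D.μ ≠ 0 := fun h => by
    have h4 := Am_pos (m := 1) (b := b) (om_pos (E := E)) hρ
    rw [← hA, NDom.A, h] at h4
    simp at h4
  have := ae_neBot.2 hne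
  obtain ⟨z, hz1, hz2⟩ := (D.supp.and h5).exists
  exact ⟨z.1, z.2, hz1.2, hP.toPack.tD_ae D.meas hz2⟩

end Vale.Agent.P219
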