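import Vale.Agent.P219.G.Final
import Vale.Agent.P219.G.Phi2
import Vale.Agent.P219.G.Ray5

/-!
# Dimension two: definitions

Proof of `A² ≥ 4πV + b²V²` without first variation.  For boundary points `(x, e)`, `(y, ν)`: `1 ≥ a a' + b b'` (radial and perpendicular components).  Both terms are integrated twice by the divergence
theorem (`Div`, `Phi`); the interior kernel is `lap y x * lap x y - 1 / J² ≥ b²` (`Third`, `Tr`).  Rigidity: `ι = 1` on `Ω × Ω`, and the ray bound for `tF`.
-/

namespace Vale.Agent.P219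

open scoped ContDiff Topology RealInnerProductSpace ENNReal
open MeasureTheory Set Filter Vale.Agent.P255
open St (sn gmod)

variable {E : Type*} [NormedAddCommGroup E] [InnerProductSpace ℝ E] [FiniteDimensional ℝ E]
  [MeasurableSpace E] [BorelSpace E] {G : E → Bil E} {L : E → E → E} {K S : Set E} {b ρ ε : ℝ}
  {τ : ℝ → ℝ} {x y e ν : E}

/-- The Laplacian at `x` of the distance from `y`. -/
noncomputable def lap (G : E → Bil E) (L : E → E → E) (y x : E) : ℝ :=
  (trc (hs G L y x) - 1) / rr G L y x

/-- The trace of the product of the two differentials. -/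
noncomputable def trS (L : E → E → E) (x y : E) : ℝ :=
  trc ((fderiv ℝ (L x) y).comp (fderiv ℝ (L y) x))

/-- The product of the perpendicular components. -/
noncomputable def bb (G : E → Bil E) (L : E → E → E) (y ν x e : E) : ℝ :=
  -(G x e ((fderiv ℝ (L y) x).inverse (-ν - (ca G L y x ν / rr G L y x) • L y x)) *
    jac G L y x / wt (G x))

/-- The singular kernel. -/
noncomputable def KK (G : E → Bil E) (L : E → E → E) (τ : ℝ → ℝ) (S : Set E) (x : E) : ℝ :=
  ∫ y in S, deriv τ (rr G L x y) * jac G L x y / rr G L x y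

/-- A double volume integral. -/
noncomputable def PP (G : E → Bil E) (L : E → E → E) (τ : ℝ → ℝ) (g : E → E → ℝ) (S : Set E) : ℝ :=
  ∫ x in S, (∫ y in S, τ (rr G L x y) * g x y * wt (G y)) * wt (G x)

/-- The ray function. -/
noncomputable def tF (b ρ r β : ℝ) : ℝ := β * (sn b r + r) - hh b ρ * ww b r

/-- Its radial derivative. -/
noncomputable def tFr (b ρ r β : ℝ) : ℝ := β * (cs b r + 1) - hh b ρ * sn b r

/-- The ray integral. -/
noncomputable def tI (b ρ : ℝ) (G : E → Bil E) (L : E → E → E) (τ : ℝ → ℝ) (S : Set E) (y ν : E) : ℝ :=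
  ∫ x in S, (deriv τ (rr G L y x) * tF b ρ (rr G L y x) (ca G L y x ν) +
    τ (rr G L y x) * tFr b ρ (rr G L y x) (ca G L y x ν)) * jac G L y x / rr G L y x

/-- The deficit. -/
noncomputable def tD (b ρ : ℝ) (G : E → Bil E) (L : E → E → E) (S : Set E) (y ν : E) (ε : ℝ) : ℝ≥0∞ :=
  ∫⁻ x in {x | x ∉ S ∧ hh b ρ * ww b (rr G L y x) < sn b (rr G L y x) * ca G L y x ν ∧
      ε ≤ rr G L y x},
    ENNReal.ofReal (tFr b ρ (rr G L y x) (ca G L y x ν) * jac G L y x / rr G L y x)

/-- The length of the chord of the model disc with angle cosine `β`. -/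
noncomputable def chd (b ρ β : ℝ) : ℝ :=
  if b = 0 then 2 * ρ * β else Real.log ((hh b ρ + b * β) / (hh b ρ - b * β)) / b

end Vale.Agent.P219
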