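import Vale.Agent.P219.T.Third

/-!
# Two applications of the divergence theorem  (TASK)

`div_rad`: `NDom.div_wt` for `f • -L · p`, `covD_smul`, `trc_add`, `trc_smul`, `trc_smulRight` (as in `fluxB_trc`).  `div1`: `f x = τ r * ca y x ν / r = -(τ r / r²) * G y ν (L y x)` (`fin_smooth`; zero near `y`),
`hasFDerivAt_rr`, `radial`, `field_ca`.  `div2`: `f y = τ r / r² * (trc (hs G L y x) - 1)` (`contDiff_hs`, `contDiff_trc`), `third`.
-/

namespace Vale.Agent.P219

open scoped ContDiff Topology RealInnerProductSpace ENNReal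
open MeasureTheory Set Filter Vale.Agent.P255
open St (sn gmod)

variable {E : Type*} [NormedAddCommGroup E] [InnerProductSpace ℝ E] [FiniteDimensional ℝ E]
  [MeasurableSpace E] [BorelSpace E] {G : E → Bil E} {L : E → E → E} {K S : Set E} {b ρ ε : ℝ}
  {τ : ℝ → ℝ} {x y e ν : E}

theorem Pack.div_rad (hP : Pack G L) (D : NDom G K) (p : E) {f : E → ℝ} (hf : ContDiff ℝ 1 f) :
    ∫ z, f z.1 * G z.1 z.2 (-L z.1 p) ∂D.μ =
      ∫ y in D.Ω, (f y * trc (hs G L p y) + fderiv ℝ f y (-L y p)) * wt (G y) := by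
  have hZ : ContDiff ℝ 1 fun x => f x • -L x p :=
    hf.smul ((hP.smooth.of_le (by simp)).comp (contDiff_id.prodMk contDiff_const)).neg
  have h := D.div_wt hP.loc hZ
  have e1 : ∀ y, wt (G y) * trc (covD G (fun x => f x • -L x p) y) =
      (f y * trc (hs G L p y) + fderiv ℝ f y (-L y p)) * wt (G y) := fun y => by
    rw [covD_smul (hf.differentiable one_ne_zero y).hasFDerivAt (packl_diff hP p y).fun_neg,
      trc_add, trc_smul, trc_smulRight, hs, mul_comm]
  simp only [e1] at h
  rw [h]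
  refine integral_congr_ae (Eventually.of_forall fun z => ?_)
  simp only [map_smul, smul_eq_mul]

omit [MeasurableSpace E] [BorelSpace E] in
theorem divq_zero (hP : Pack G L) (hτ : Cut τ ε) (p : E) :
    (fun y => τ (rr G L p y) / rr G L p y ^ 2) =ᶠ[𝓝 p] fun _ => 0 := by
  obtain ⟨α, hα, h0⟩ := hτ.zero
  have h1 : ∀ᶠ r in 𝓝 (rr G L p p), r ≤ α := by
    rw [hP.rr_self]
    exact eventually_le_nhds hα
  filter_upwards [(cont_r hP continuous_const continuous_id).continuousAt.eventually h1] with y hy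
  rw [h0 (rr G L p y) hy, zero_div]

omit [MeasurableSpace E] [BorelSpace E] in
theorem divq_smooth (hP : Pack G L) (hτ : Cut τ ε) (p : E) :
    ContDiff ℝ 1 fun y => τ (rr G L p y) / rr G L p y ^ 2 :=
  contDiff_iff_contDiffAt.2 fun y => by
    rcases eq_or_ne p y with rfl | hy
    · exact contDiffAt_const.congr_of_eventuallyEq (divq_zero hP hτ p)
    · exact ((fin_smooth hτ 2).of_le (by norm_num)).contDiffAt.comp y
        (((hP.contDiffAt_rr hy).of_le (by simp)).comp y (contDiffAt_const.prodMk contDiffAt_id))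

omit [MeasurableSpace E] [BorelSpace E] in
theorem divq_fderiv (hP : Pack G L) (hτ : Cut τ ε) (p y : E) :
    fderiv ℝ (fun y => τ (rr G L p y) / rr G L p y ^ 2) y (-L y p) =
      deriv τ (rr G L p y) / rr G L p y - 2 * (τ (rr G L p y) / rr G L p y ^ 2) := by
  rcases eq_or_ne p y with rfl | hy
  · rw [hP.self, neg_zero, map_zero, hP.rr_self]
    simp
  · have hr := (hP.rr_pos hy.symm).ne'
    have h1 : HasDerivAt τ (deriv τ (rr G L p y)) (rr G L p y) :=
      (hτ.smooth.differentiable (by norm_num) _).hasDerivAt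
    have d1 := (h1.fun_div (hasDerivAt_pow 2 _) (pow_ne_zero 2 hr)).comp_hasFDerivAt y
      (hP.hasFDerivAt_rr hy)
    have e : G y (L y p) (L y p) = rr G L p y ^ 2 := by
      rw [hP.rr_symm, hP.rr_sq]
      rfl
    have d2 : fderiv ℝ (fun y => τ (rr G L p y) / rr G L p y ^ 2) y = _ := d1.fderiv
    rw [d2, smul_apply, smul_apply, map_neg, e, smul_eq_mul, smul_eq_mul]
    simp only [Nat.cast_ofNat, Nat.add_one_sub_one, pow_one]
    field_simp

theorem Pack.div_q (hP : Pack G L) (D : NDom G K) (hτ : Cut τ ε) (p : E) {g : E → ℝ}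
    (hg : ContDiff ℝ 1 g) :
    ∫ z, τ (rr G L p z.1) / rr G L p z.1 ^ 2 * g z.1 * G z.1 z.2 (-L z.1 p) ∂D.μ =
      ∫ y in D.Ω, (τ (rr G L p y) / rr G L p y ^ 2 * g y * trc (hs G L p y) +
        ((deriv τ (rr G L p y) / rr G L p y - 2 * (τ (rr G L p y) / rr G L p y ^ 2)) * g y +
          τ (rr G L p y) / rr G L p y ^ 2 * fderiv ℝ g y (-L y p))) * wt (G y) := by
  have hq := divq_smooth hP hτ p
  rw [hP.div_rad D p (hq.mul hg)]
  refine integral_congr_ae (Eventually.of_forall fun y => ?_)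
  beta_reduce
  rw [fderiv_fun_mul (hq.differentiable one_ne_zero y) (hg.differentiable one_ne_zero y),
    add_apply, smul_apply, smul_apply, divq_fderiv hP hτ, smul_eq_mul, smul_eq_mul]
  ring

theorem Pack.div1 (hP : Pack G L) (D : NDom G K) (hτ : Cut τ ε) (y ν : E) :
    ∫ z, τ (rr G L y z.1) * (ca G L z.1 y z.2 * ca G L y z.1 ν) ∂D.μ =
      ∫ x in D.Ω, (deriv τ (rr G L y x) + τ (rr G L y x) * lap G L y x) * ca G L y x ν *
        wt (G x) := by
  have hL : ContDiff ℝ 1 (L y) :=
    (hP.smooth.of_le (by simp)).comp (contDiff_const.prodMk contDiff_id)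
  have hg : ContDiff ℝ 1 fun x => (-G y ν) (L y x) := (-G y ν).contDiff.comp hL
  have hd : ∀ x, fderiv ℝ (fun x => (-G y ν) (L y x)) x (-L x y) = (-G y ν) (L y x) := fun x => by
    have d : fderiv ℝ (fun x => (-G y ν) (L y x)) x = _ :=
      ((-G y ν).hasFDerivAt.comp x (hL.differentiable one_ne_zero x).hasFDerivAt).fderiv
    rw [d, ContinuousLinearMap.comp_apply, map_neg, hP.radial, neg_neg]
  have hc : ∀ x, (-G y ν) (L y x) = rr G L y x * ca G L y x ν := fun x => by
    rw [neg_apply, field_ca hP, neg_neg, hP.rr_symm]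
  obtain ⟨α, hα, h0⟩ := hτ.zero
  have h := hP.div_q D hτ y hg
  simp only [hd] at h
  simp only [hc] at h
  refine Eq.trans ?_ (h.trans ?_)
  · refine integral_congr_ae (Eventually.of_forall fun z => ?_)
    beta_reduce
    rw [map_neg, field_ca hP, neg_neg]
    rcases eq_or_ne (rr G L y z.1) 0 with hr | hr
    · rw [hr, h0 0 hα.le]
      simp
    · field_simp
  · refine integral_congr_ae (Eventually.of_forall fun x => ?_)
    beta_reduce
    rcases eq_or_ne (rr G L y x) 0 with hr | hr
    · rw [ca, hr]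
      simp
    · rw [lap]
      field_simp
      ring

theorem Pack.div2 (hP : Pack G L) (D : NDom G K) (hτ : Cut τ ε) (x : E) :
    ∫ z, τ (rr G L z.1 x) * lap G L z.1 x * ca G L z.1 x z.2 ∂D.μ =
      ∫ y in D.Ω, (deriv τ (rr G L x y) * lap G L y x + τ (rr G L x y) *
        (lap G L y x * lap G L x y - (trS L x y - 1) / rr G L x y ^ 2)) * wt (G y) := by
  have hT : ContDiff ℝ 1 fun y => trc (hs G L y x) :=
    ((contDiff_trc.of_le (by simp)).comp hP.contDiff_hs).comp (contDiff_id.prodMk contDiff_const)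
  have hg : ContDiff ℝ 1 fun y => trc (hs G L y x) - 1 := hT.sub contDiff_const
  have hd : ∀ y, fderiv ℝ (fun y => trc (hs G L y x) - 1) y (-L y x) =
      -(trS L x y - trc (hs G L y x)) := fun y => by
    rw [fderiv_sub_const, map_neg, hP.third]
  have h := hP.div_q D hτ x hg
  simp only [hd] at h
  refine Eq.trans ?_ (h.trans ?_)
  · refine integral_congr_ae (Eventually.of_forall fun z => ?_)
    beta_reduce
    rw [map_neg, field_ca hP, neg_neg, lap, hP.rr_symm z.1 x]
    rcases eq_or_ne (rr G L x z.1) 0 with hr | hr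
    · rw [hr]
      simp
    · field_simp
  · refine integral_congr_ae (Eventually.of_forall fun y => ?_)
    beta_reduce
    rw [lap, lap, hP.rr_symm y x]
    ring

end Vale.Agent.P219
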