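import Vale.Agent.P219.T.Tr

/-!
# Flux identities in polar coordinates  (TASK)

`two_bb`: `phi_id2` with `T r β = τ r`, `Tβ = 0`.  `two_phi`: `phi_id` with pole `x` (any `ν`), `F r β = τ r * f r`, `jac_swap`, `rr_symm`.
-/

namespace Vale.Agent.P219

open scoped ContDiff Topology RealInnerProductSpace ENNReal
open MeasureTheory Set Filter Vale.Agent.P255
open St (sn gmod)

variable {E : Type*} [NormedAddCommGroup E] [InnerProductSpace ℝ E] [FiniteDimensional ℝ E]
  [MeasurableSpace E] [BorelSpace E] {G : E → Bil E} {L : E → E → E} {K S : Set E} {b ρ ε : ℝ}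
  {τ : ℝ → ℝ} {x y e ν : E}

theorem Pack.two_bb (hE : Module.finrank ℝ E = 1 + 1) (hP : Pack G L) (D : NDom G K) (hτ : Cut τ ε)
    (hν : G y ν ν = 1) : ∫ z, τ (rr G L y z.1) * bb G L y ν z.1 z.2 ∂D.μ =
      ∫ x in D.Ω, τ (rr G L y x) * ca G L y x ν * jac G L y x / rr G L y x := by
  obtain ⟨α, hα, h0⟩ := hτ.zero
  have := hP.phi_id2 hE le_rfl D hν (T := fun r _ => τ r) (Tβ := fun _ _ => 0)
    ((hτ.smooth.of_le one_le_two).comp contDiff_fst).contDiffOn
    (fun r β _ => hasDerivAt_const _ _) hα fun r _ => h0 r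
  rw [← neg_inj, ← integral_neg, ← integral_neg]
  refine (integral_congr_ae (Eventually.of_forall fun z => ?_)).trans (this.symm.trans
    (integral_congr_ae (Eventually.of_forall fun z => ?_)))
  · simp only [bb]
    ring
  · simp only
    ring

theorem Pack.two_phi (hE : Module.finrank ℝ E = 1 + 1) (hP : Pack G L) (D : NDom G K) (hτ : Cut τ ε)
    {f f' : ℝ → ℝ} (hf : ContDiff ℝ 1 f) (hd : ∀ r, HasDerivAt f (f' r) r) (x : E) :
    ∫ z, τ (rr G L z.1 x) * f (rr G L z.1 x) * ca G L z.1 x z.2 * jac G L z.1 x / rr G L z.1 x ∂D.μ =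
      (∫ y in D.Ω, (deriv τ (rr G L x y) * f (rr G L x y) + τ (rr G L x y) * f' (rr G L x y)) *
        jac G L x y / rr G L x y) * wt (G x) := by
  obtain ⟨α, hα, h0⟩ := hτ.zero
  have h1 := hτ.smooth.of_le one_le_two
  have := hP.phi_id hE D x 0 (F := fun r _ => τ r * f r)
    (Fr := fun r _ => deriv τ r * f r + τ r * f' r) ((h1.mul hf).comp contDiff_fst).contDiffOn
    (fun r β _ => (h1.differentiable one_ne_zero r).hasDerivAt.mul (hd r)) hα
    fun r _ h => by rw [h0 r h, zero_mul]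
  simp only [pow_one] at this
  rw [this, ← integral_mul_const]
  refine integral_congr_ae (Eventually.of_forall fun z => ?_)
  have h2 := (wt_pos (posB_of_loc hP.loc z.1)).ne'
  simp only
  rw [hP.rr_symm z.1 x, eq_div_of_mul_eq h2 (hP.jac_swap x z.1)]
  ring

end Vale.Agent.P219
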