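import Vale.Agent.P219.T.Defs

/-!
# The singular kernel  (TASK)

`two_rad`: continuous with compact support (`Cut.zero'`, `Cut.nonneg`); `integral_fun_norm_addHaar`, `∫ τ' = 1`.  `KK_mem`, `KK_eq`: `Pack.chg` (as in `Pack.ray`), `setIntegral_le_integral`; for `KK_eq` the integrand
vanishes off the image of `S` (`PackK.surj`).  `two_err`: `radial_bound` with `e = deriv τ`, and `τ' r ≤ ε * (τ' r / r)` for `r ≥ 0`.
-/

namespace Vale.Agent.P219

open scoped ContDiff Topology RealInnerProductSpace ENNReal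
open MeasureTheory Set Filter Vale.Agent.P255
open St (sn gmod)

variable {E : Type*} [NormedAddCommGroup E] [InnerProductSpace ℝ E] [FiniteDimensional ℝ E]
  [MeasurableSpace E] [BorelSpace E] {G : E → Bil E} {L : E → E → E} {K S : Set E} {b ρ ε : ℝ}
  {τ : ℝ → ℝ} {x y e ν : E}

theorem trad_zero (hτ : Cut τ ε) : τ 0 = 0 ∧ deriv τ 0 = 0 := by
  obtain ⟨α, hα, h0⟩ := hτ.zero'
  exact h0 0 hα.le

theorem trad_pos (hτ : Cut τ ε) : 0 < ε := by
  by_contra h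
  have h1 := hτ.one 0 (not_lt.1 h)
  rw [(trad_zero hτ).1] at h1
  exact zero_ne_one h1

theorem trad_one (hτ : Cut τ ε) :
    IntegrableOn (deriv τ) (Ioi (0 : ℝ)) ∧ ∫ r in Ioi (0 : ℝ), deriv τ r = 1 := by
  have hd : ∀ r ∈ Ioi (0 : ℝ), HasDerivAt τ (deriv τ r) r := fun r _ =>
    (hτ.smooth.differentiable two_ne_zero r).hasDerivAt
  have hc : ContinuousWithinAt τ (Ici 0) 0 := hτ.smooth.continuous.continuousWithinAt
  have hp : ∀ r ∈ Ioi (0 : ℝ), 0 ≤ deriv τ r := fun r _ => (hτ.nonneg r).2.2.1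
  have ht : Tendsto τ atTop (𝓝 1) :=
    tendsto_const_nhds.congr' ((eventually_ge_atTop ε).mono fun r hr => (hτ.one r hr).symm)
  refine ⟨integrableOn_Ioi_deriv_of_nonneg hc hd hp ht, ?_⟩
  rw [integral_Ioi_of_hasDerivAt_of_nonneg hc hd hp ht, (trad_zero hτ).1, sub_zero]

theorem trad_le (hτ : Cut τ ε) {r : ℝ} (hr : 0 ≤ r) : deriv τ r ≤ ε * (deriv τ r / r) := by
  rcases hr.eq_or_lt with rfl | hr
  · rw [(trad_zero hτ).2, zero_div, mul_zero]
  · rcases le_or_gt r ε with h | h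
    · calc deriv τ r = r * (deriv τ r / r) := (mul_div_cancel₀ _ hr.ne').symm
        _ ≤ ε * (deriv τ r / r) :=
          mul_le_mul_of_nonneg_right h (div_nonneg (hτ.nonneg r).2.2.1 hr.le)
    · rw [(hτ.nonneg r).2.2.2 h, zero_div, mul_zero]

theorem trad_chg (hP : Pack G L) (τ : ℝ → ℝ) (hS : MeasurableSet S) (x : E) :
    ∃ P : E ≃L[ℝ] E, (∀ y, ‖P (L x y)‖ = rr G L x y) ∧
      KK G L τ S x = ∫ v in (fun y => P (L x y)) '' S, deriv τ ‖v‖ / ‖v‖ := by
  obtain ⟨P, h1, h2, h3⟩ := hP.chg x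
  have hn : ∀ y, ‖P (L x y)‖ = rr G L x y := fun y => by
    rw [rr, qq, h1, real_inner_self_eq_norm_sq, Real.sqrt_sq (norm_nonneg _)]
  refine ⟨P, hn, ?_⟩
  rw [(h3 S hS fun v => deriv τ ‖v‖ / ‖v‖).1, KK]
  refine integral_congr_ae (ae_of_all _ fun y => ?_)
  simp only [hn, jac]
  ring

theorem two_rad (hE : Module.finrank ℝ E = 1 + 1) (hτ : Cut τ ε) :
    Integrable (fun v : E => deriv τ ‖v‖ / ‖v‖) ∧ ∫ v : E, deriv τ ‖v‖ / ‖v‖ = 2 * om E := by
  have : Nontrivial E := Module.nontrivial_of_finrank_eq_succ hE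
  obtain ⟨i1, i2⟩ := trad_one hτ
  have e : ∀ r ∈ Ioi (0 : ℝ), r ^ (Module.finrank ℝ E - 1) • (deriv τ r / r) = deriv τ r := by
    intro r hr
    rw [hE, Nat.add_sub_cancel, pow_one, smul_eq_mul, mul_div_cancel₀ _ (ne_of_gt hr)]
  refine ⟨(integrable_fun_norm_addHaar volume (f := fun r => deriv τ r / r)).2
    ((integrableOn_congr_fun e measurableSet_Ioi).2 i1), ?_⟩
  rw [integral_fun_norm_addHaar volume (fun r => deriv τ r / r),
    setIntegral_congr_fun measurableSet_Ioi e, i2, hE, nsmul_eq_mul, smul_eq_mul, mul_one]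
  push_cast
  rfl

theorem Pack.KK_mem (hE : Module.finrank ℝ E = 1 + 1) (hP : Pack G L) (hτ : Cut τ ε)
    (hS : MeasurableSet S) (x : E) : 0 ≤ KK G L τ S x ∧ KK G L τ S x ≤ 2 * om E := by
  obtain ⟨P, -, h⟩ := trad_chg hP τ hS x
  obtain ⟨i1, i2⟩ := two_rad hE hτ
  have hp : ∀ v : E, 0 ≤ deriv τ ‖v‖ / ‖v‖ := fun v =>
    div_nonneg (hτ.nonneg _).2.2.1 (norm_nonneg v)
  rw [h, ← i2]
  exact ⟨integral_nonneg hp, setIntegral_le_integral i1 (ae_of_all _ hp)⟩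

theorem PackK.KK_eq (hE : Module.finrank ℝ E = 1 + 1) (hP : PackK b G L) (hτ : Cut τ ε)
    (hS : MeasurableSet S) (h : ∀ y, rr G L x y ≤ ε → y ∈ S) : KK G L τ S x = 2 * om E := by
  obtain ⟨P, hn, h1⟩ := trad_chg hP.toPack τ hS x
  rw [h1, ← (two_rad hE hτ).2]
  refine setIntegral_eq_integral_of_forall_compl_eq_zero fun v hv => ?_
  obtain ⟨y, hy⟩ := hP.surj x (P.symm v)
  have e : P (L x y) = v := by rw [hy, P.apply_symm_apply]
  have h2 : ε < ‖v‖ := by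
    by_contra h3
    exact hv ⟨y, h y (by rw [← hn, e]; exact not_lt.1 h3), e⟩
  rw [(hτ.nonneg _).2.2.2 h2, zero_div]

theorem Pack.two_err (hE : Module.finrank ℝ E = 1 + 1) (hP : Pack G L) (hK : IsCompact K) :
    ∃ C : ℝ, 0 < C ∧ ∀ (τ : ℝ → ℝ) (ε : ℝ), Cut τ ε → ∀ S : Set E, MeasurableSet S → S ⊆ K →
      ∀ y ∈ K, ∫ x in S, deriv τ (rr G L y x) * wt (G x) ≤ C * ε := by
  obtain ⟨J, R, hJ, -, -, h⟩ := hP.radial_bound hK
  have ho := om_pos (E := E)
  refine ⟨J * (2 * om E), by positivity, fun τ ε hτ S hS hSK y hy => ?_⟩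
  have hc : Continuous (deriv τ) := hτ.smooth.continuous_deriv one_le_two
  have i0 : IntegrableOn (fun v : E => deriv τ ‖v‖) (Metric.closedBall 0 R) :=
    (hc.comp continuous_norm).continuousOn.integrableOn_compact (isCompact_closedBall 0 R)
  obtain ⟨i1, i2⟩ := two_rad hE hτ
  refine (h y hy S hS hSK (deriv τ) hc.measurable (fun r => (hτ.nonneg r).2.2.1) i0).2.trans ?_
  rw [mul_assoc]
  refine mul_le_mul_of_nonneg_left ?_ hJ.le
  calc ∫ v in Metric.closedBall (0 : E) R, deriv τ ‖v‖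
      ≤ ∫ v in Metric.closedBall (0 : E) R, ε * (deriv τ ‖v‖ / ‖v‖) :=
        integral_mono i0 (i1.const_mul ε).integrableOn fun v => trad_le hτ (norm_nonneg v)
    _ ≤ ∫ v : E, ε * (deriv τ ‖v‖ / ‖v‖) :=
        setIntegral_le_integral (i1.const_mul ε) (ae_of_all _ fun v =>
          mul_nonneg (trad_pos hτ).le (div_nonneg (hτ.nonneg _).2.2.1 (norm_nonneg v)))
    _ = 2 * om E * ε := by rw [integral_const_mul, i2, mul_comm]

end Vale.Agent.P219
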