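import Vale.Agent.P219.T.Pt
import Vale.Agent.P219.T.Div
import Vale.Agent.P219.T.Phi
import Vale.Agent.P219.T.Rad
import Vale.Agent.P219.T.Swap

/-!
# First integration  (TASK)

For fixed `(y, ν)`: `τ (a a' + b b') ≤ 1` (`two_pt`, `τ 0 = 0`, `0 ≤ τ ≤ 1`), `div1`, `two_bb`, and `τ' a' wt ≥ -τ' wt` (`ca_sq_le`), `two_err`.  Integrability: `cont_cut`, `two_int1`, `NDom.integrable`.
-/

namespace Vale.Agent.P219

open scoped ContDiff Topology RealInnerProductSpace ENNReal
open MeasureTheory Set Filter Vale.Agent.P255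
open St (sn gmod)

variable {E : Type*} [NormedAddCommGroup E] [InnerProductSpace ℝ E] [FiniteDimensional ℝ E]
  [MeasurableSpace E] [BorelSpace E] {G : E → Bil E} {L : E → E → E} {K S : Set E} {b ρ ε : ℝ}
  {τ : ℝ → ℝ} {x y e ν : E}

theorem Pack.two_m1 (hE : Module.finrank ℝ E = 1 + 1) (hP : Pack G L) (hK : IsCompact K) :
    ∃ C : ℝ, 0 < C ∧ ∀ (D : NDom G K) (τ : ℝ → ℝ) (ε : ℝ), Cut τ ε → ∀ y ν, (y, ν) ∈ UB G K →
      (∫ x in D.Ω, τ (rr G L y x) * lap G L y x * ca G L y x ν * wt (G x)) +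
        ∫ x in D.Ω, τ (rr G L y x) * ca G L y x ν * jac G L y x / rr G L y x ≤ D.A + C * ε := by
  obtain ⟨C, hC, hb⟩ := hP.two_err hE hK
  refine ⟨C, hC, fun D τ ε hτ y ν h => ?_⟩
  obtain ⟨α, hα, h0⟩ := hτ.zero'
  have hτc := hτ.smooth.continuous
  have hτd := hτ.smooth.continuous_deriv one_le_two
  have hx : Continuous fun z : E × E => z.1 := continuous_fst
  have hy : Continuous fun _ : E × E => y := continuous_const
  have hy' : Continuous fun _ : E => y := continuous_const
  have hw := (contDiff_wt hP.loc).continuous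
  have ha := cont_ca hP hy' continuous_id (continuous_const (y := ν))
  have j1 := D.integrable hP.loc hK (hP.cont_cut hy hx ((cont_ca' hP hy hx continuous_snd).mul
    (cont_ca hP hy hx (continuous_const (y := ν)))) hτc hα fun r hr => (h0 r hr).1)
  have j2 := D.integrable hP.loc hK (hP.cont_cut hy hx
    (cont_bb hP hy hx (continuous_const (y := ν)) continuous_snd) hτc hα fun r hr => (h0 r hr).1)
  have i1 := two_int1 hK D.sub (hP.cont_cut hy' continuous_id (ha.mul hw.continuousOn) hτd hα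
    fun r hr => (h0 r hr).2)
  have i2 := two_int1 hK D.sub (hP.cont_cut hy' continuous_id
    (((cont_lap hP hy' continuous_id).mul ha).mul hw.continuousOn) hτc hα fun r hr => (h0 r hr).1)
  have i3 := two_int1 hK D.sub ((hτd.comp (cont_r hP hy' continuous_id)).mul hw)
  have e1 : (∫ z, τ (rr G L y z.1) * (ca G L z.1 y z.2 * ca G L y z.1 ν) ∂D.μ) +
      ∫ z, τ (rr G L y z.1) * bb G L y ν z.1 z.2 ∂D.μ ≤ D.A := by
    refine (integral_add j1 j2).symm.trans_le ((integral_mono_ae (j1.add j2) (integrable_const 1)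
      (D.supp.mono fun z hz => ?_)).trans_eq (by simp [NDom.A]))
    show τ (rr G L y z.1) * (ca G L z.1 y z.2 * ca G L y z.1 ν) +
      τ (rr G L y z.1) * bb G L y ν z.1 z.2 ≤ 1
    rcases eq_or_ne z.1 y with hz' | hz'
    · rw [hz', hP.rr_self, (h0 0 hα.le).1, zero_mul, zero_mul, add_zero]
      exact zero_le_one
    · rw [← mul_add]
      exact (mul_le_mul_of_nonneg_left (hP.two_pt hE hz' hz.2 h.2) (hτ.nonneg _).1).trans
        ((mul_one _).trans_le (hτ.nonneg _).2.1)
  have e2 : ∫ x in D.Ω, (deriv τ (rr G L y x) + τ (rr G L y x) * lap G L y x) * ca G L y x ν *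
      wt (G x) = (∫ x in D.Ω, deriv τ (rr G L y x) * (ca G L y x ν * wt (G x))) +
        ∫ x in D.Ω, τ (rr G L y x) * (lap G L y x * ca G L y x ν * wt (G x)) :=
    Eq.trans (integral_congr_ae (ae_of_all _ fun x => by
      simp only
      ring)) (integral_add i1 i2)
  have e3 : -∫ x in D.Ω, deriv τ (rr G L y x) * wt (G x) ≤
      ∫ x in D.Ω, deriv τ (rr G L y x) * (ca G L y x ν * wt (G x)) := by
    rw [← integral_neg]
    refine integral_mono i3.neg i1 fun x => ?_
    have h1 := (abs_le.1 ((sq_le_one_iff_abs_le_one _).1 ((hP.ca_sq_le y x ν).trans h.2.le))).1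
    have h2 := mul_nonneg (mul_nonneg (hτ.nonneg (rr G L y x)).2.2.1
      (wt_pos (posB_of_loc hP.loc x)).le) (sub_nonneg.2 h1)
    show -(deriv τ (rr G L y x) * wt (G x)) ≤ deriv τ (rr G L y x) * (ca G L y x ν * wt (G x))
    linarith
  have e4 := hb τ ε hτ D.Ω D.meas D.sub y h.1
  rw [hP.div1 D hτ, hP.two_bb hE D hτ h.2, e2] at e1
  simp only [← mul_assoc] at e1 e3
  linarith

end Vale.Agent.P219
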