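import Vale.Agent.P219.T.Div
import Vale.Agent.P219.T.Phi
import Vale.Agent.P219.T.Rad
import Vale.Agent.P219.T.Swap

/-!
# Second integration

For fixed `x ∈ K`: `div2`, `lap_ge'`, `two_low` with `c ≤ 1 / sn r²` (`1 - ι ≥ 0`), for `two_m2`; `two_phi` with `f = 1` for `two_m3`.
-/

namespace Vale.Agent.P219

open scoped ContDiff Topology RealInnerProductSpace ENNReal
open MeasureTheory Set Filter Vale.Agent.P255
open St (sn gmod)

variable {E : Type*} [NormedAddCommGroup E] [InnerProductSpace ℝ E] [FiniteDimensional ℝ E]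
  [MeasurableSpace E] [BorelSpace E] {G : E → Bil E} {L : E → E → E} {K S : Set E} {b ρ ε : ℝ}
  {τ : ℝ → ℝ} {x y e ν : E}

theorem PackK.two_m2 (hE : Module.finrank ℝ E = 1 + 1) (hP : PackK b G L) (hK : IsCompact K) :
    ∃ c : ℝ, 0 < c ∧ ∀ (D : NDom G K) (τ : ℝ → ℝ) (ε : ℝ), Cut τ ε → ∀ x ∈ K,
      KK G L τ D.Ω x + (b ^ 2 + c) * (∫ y in D.Ω, τ (rr G L x y) * 1 * wt (G y)) -
          c * ∫ y in D.Ω, τ (rr G L x y) * iota 1 b G L x y * wt (G y) ≤
        ∫ z, τ (rr G L z.1 x) * lap G L z.1 x * ca G L z.1 x z.2 ∂D.μ := by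
  have hQ : Pack G L := hP.toPack
  obtain ⟨M, hM⟩ := (hK.prod hK).bddAbove_image
    (((cont_sn (b := b) hQ continuous_fst continuous_snd).pow 2).continuousOn)
  have hM1 : 0 < max M 1 := lt_max_of_lt_right one_pos
  refine ⟨1 / max M 1, one_div_pos.2 hM1, fun D τ ε hτ x hx => ?_⟩
  set c := 1 / max M 1 with hc
  obtain ⟨α, hα, h0⟩ := hτ.zero'
  have cx : Continuous fun _ : E => x := continuous_const
  have cy : Continuous fun y : E => y := continuous_id
  have cτ : Continuous τ := hτ.smooth.continuous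
  have cd : Continuous (deriv τ) := hτ.smooth.continuous_deriv (by norm_num)
  have cw : Continuous fun y : E => wt (G y) := (contDiff_wt hQ.loc).continuous
  have cr : ContinuousOn (fun y : E => rr G L x y) {y | x ≠ y} := (cont_r hQ cx cy).continuousOn
  have cl : ContinuousOn (fun y : E => lap G L y x) {y | x ≠ y} :=
    (cont_lap hQ cy cx).mono fun _ h => Ne.symm h
  have c1 : Continuous fun y : E => deriv τ (rr G L x y) * jac G L x y / rr G L x y := by
    simp only [mul_div_assoc]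
    exact hQ.cont_cut cx cy ((cont_jac hQ cx cy).continuousOn.div cr (cont_ne hQ)) cd hα
      fun r hr => (h0 r hr).2
  have c2 : Continuous fun y : E => τ (rr G L x y) * 1 * wt (G y) :=
    ((cτ.comp (cont_r hQ cx cy)).mul continuous_const).mul cw
  have c3 : Continuous fun y : E => τ (rr G L x y) * iota 1 b G L x y * wt (G y) :=
    (hQ.cont_cut cx cy (cont_iota hQ cx cy) cτ hα fun r hr => (h0 r hr).1).mul cw
  have c4 : Continuous fun y : E => (deriv τ (rr G L x y) * lap G L y x + τ (rr G L x y) *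
      (lap G L y x * lap G L x y - (trS L x y - 1) / rr G L x y ^ 2)) * wt (G y) :=
    ((hQ.cont_cut cx cy cl cd hα fun r hr => (h0 r hr).2).add (hQ.cont_cut cx cy
      ((cl.mul (cont_lap hQ cx cy)).sub (((cont_trS hQ cx cy).sub continuous_const).continuousOn.div
        (cr.pow 2) fun t h => pow_ne_zero _ (cont_ne hQ t h))) cτ hα
      fun r hr => (h0 r hr).1)).mul cw
  have i1 := two_int1 hK D.sub c1
  have i2 := (two_int1 hK D.sub c2).const_mul (b ^ 2 + c)
  have i3 := (two_int1 hK D.sub c3).const_mul c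
  have i4 : IntegrableOn (fun y : E => deriv τ (rr G L x y) * jac G L x y / rr G L x y +
      (b ^ 2 + c) * (τ (rr G L x y) * 1 * wt (G y))) D.Ω := i1.add i2
  rw [hQ.div2 D hτ x, KK, ← integral_const_mul, ← integral_const_mul, ← integral_add i1 i2,
    ← integral_sub i4 i3]
  refine setIntegral_mono_on (i4.sub i3) (two_int1 hK D.sub c4) D.meas fun y hy => ?_
  rcases eq_or_ne x y with rfl | h
  · obtain ⟨e1, e2⟩ := h0 (rr G L x x) (by rw [hQ.rr_self]; exact hα.le)
    simp [e1, e2]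
  obtain ⟨t0, -, t1, -⟩ := hτ.nonneg (rr G L x y)
  have w0 := (wt_pos (posB_of_loc hQ.loc y)).le
  have s0 : 0 < sn b (rr G L x y) ^ 2 := pow_pos (sn_pos b (hQ.rr_pos h.symm)) 2
  have s1 : c ≤ 1 / sn b (rr G L x y) ^ 2 :=
    one_div_le_one_div_of_le s0 ((hM ⟨(x, y), ⟨hx, D.sub hy⟩, rfl⟩).trans (le_max_left _ _))
  have j1 : 0 ≤ 1 - iota 1 b G L x y := sub_nonneg.2 (hP.iota_le_one hE h)
  have j2 : c * (1 - iota 1 b G L x y) ≤ (1 - iota 1 b G L x y) / sn b (rr G L x y) ^ 2 := by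
    rw [div_eq_mul_one_div (1 - iota 1 b G L x y), mul_comm]
    exact mul_le_mul_of_nonneg_left s1 j1
  have k1 := mul_le_mul_of_nonneg_left (hP.lap_ge' hE h) t1
  have k2 := mul_le_mul_of_nonneg_left ((add_le_add_right j2 (b ^ 2)).trans (hP.two_low hE h))
    (mul_nonneg t0 w0)
  simp only [mul_div_assoc]
  linarith

theorem Pack.two_m3 (hE : Module.finrank ℝ E = 1 + 1) (hP : Pack G L) (D : NDom G K) (hτ : Cut τ ε)
    (x : E) : ∫ z, τ (rr G L z.1 x) * ca G L z.1 x z.2 * jac G L z.1 x / rr G L z.1 x ∂D.μ =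
      KK G L τ D.Ω x * wt (G x) := by
  have h := hP.two_phi hE D hτ (f := fun _ => 1) (f' := fun _ => 0) contDiff_const
    (fun r => hasDerivAt_const r 1) x
  simpa only [mul_one, mul_zero, add_zero, KK] using h

end Vale.Agent.P219
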