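import Vale.Agent.P219.T.M1
import Vale.Agent.P219.T.M2

/-!
# The inequality with cut-off  (TASK)

Integrate `two_m1` over `D.μ`, `NDom.swap` twice, `two_m2` (times `wt (G x)`), `two_m3`.  Integrability in `x`: `Integrable.integral_prod_right/left` of `NDom.swap`, `two_int`.
-/

namespace Vale.Agent.P219

open scoped ContDiff Topology RealInnerProductSpace ENNReal
open MeasureTheory Set Filter Vale.Agent.P255
open St (sn gmod)

variable {E : Type*} [NormedAddCommGroup E] [InnerProductSpace ℝ E] [FiniteDimensional ℝ E]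
  [MeasurableSpace E] [BorelSpace E] {G : E → Bil E} {L : E → E → E} {K S : Set E} {b ρ ε : ℝ}
  {τ : ℝ → ℝ} {x y e ν : E}

theorem Pack.int_KK (hP : Pack G L) (hK : IsCompact K) (hS : MeasurableSet S) (hSK : S ⊆ K)
    (hτ : Cut τ ε) : IntegrableOn (fun x => KK G L τ S x * wt (G x)) S := by
  obtain ⟨α, hα, h0⟩ := hτ.zero'
  have hx : Continuous fun z : E × E => z.1 := continuous_fst
  have hy : Continuous fun z : E × E => z.2 := continuous_snd
  have hc := hP.cont_cut hx hy (((cont_jac hP hx hy).continuousOn.div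
    (cont_r hP hx hy).continuousOn (cont_ne hP)).mul
      ((contDiff_wt hP.loc).continuous.comp hx).continuousOn)
    (hτ.smooth.continuous_deriv (by simp)) hα fun r hr => (h0 r hr).2
  refine (two_int hK hS hSK hc).integral_prod_left.congr (ae_of_all _ fun x => ?_)
  simp only [KK]
  rw [← integral_mul_const]
  refine integral_congr_ae (ae_of_all _ fun y => ?_)
  simp only [Pi.mul_apply, Pi.div_apply, Function.comp_apply]
  ring

theorem Pack.int_PP (hP : Pack G L) (hK : IsCompact K) (hS : MeasurableSet S) (hSK : S ⊆ K)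
    (hτ : Cut τ ε) {g : E → E → ℝ} (hg : ContinuousOn (fun z : E × E => g z.1 z.2) {z | z.1 ≠ z.2}) :
    IntegrableOn (fun x => (∫ y in S, τ (rr G L x y) * g x y * wt (G y)) * wt (G x)) S := by
  obtain ⟨α, hα, h0⟩ := hτ.zero'
  have hx : Continuous fun z : E × E => z.1 := continuous_fst
  have hy : Continuous fun z : E × E => z.2 := continuous_snd
  have hc := hP.cont_cut hx hy ((hg.mul
    ((contDiff_wt hP.loc).continuous.comp hy).continuousOn).mul
      ((contDiff_wt hP.loc).continuous.comp hx).continuousOn)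
    hτ.smooth.continuous hα fun r hr => (h0 r hr).1
  refine (two_int hK hS hSK hc).integral_prod_left.congr (ae_of_all _ fun x => ?_)
  simp only []
  rw [← integral_mul_const]
  refine integral_congr_ae (ae_of_all _ fun y => ?_)
  simp only [Pi.mul_apply, Function.comp_apply]
  ring

theorem PackK.two_main (hE : Module.finrank ℝ E = 1 + 1) (hP : PackK b G L) (hK : IsCompact K) :
    ∃ C c : ℝ, 0 < C ∧ 0 < c ∧ ∀ (D : NDom G K) (τ : ℝ → ℝ) (ε : ℝ), Cut τ ε →
      2 * (∫ x in D.Ω, KK G L τ D.Ω x * wt (G x)) + (b ^ 2 + c) * PP G L τ (fun _ _ => 1) D.Ω -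
        c * PP G L τ (iota 1 b G L) D.Ω ≤ D.A ^ 2 + C * ε * D.A := by
  have hQ := hP.toPack
  obtain ⟨C, hC, h1⟩ := hQ.two_m1 hE hK
  obtain ⟨c, hc, h2⟩ := hP.two_m2 hE hK
  refine ⟨C, c, hC, hc, fun D τ ε hτ => ?_⟩
  obtain ⟨α, hα, h0⟩ := hτ.zero'
  have hx : Continuous fun w : (E × E) × E => w.1.1 := continuous_fst.fst
  have hy : Continuous fun w : (E × E) × E => w.2 := continuous_snd
  have ha := cont_ca hQ hx hy continuous_fst.snd
  have c1 : Continuous fun w : (E × E) × E => τ (rr G L w.1.1 w.2) * lap G L w.1.1 w.2 *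
      ca G L w.1.1 w.2 w.1.2 * wt (G w.2) :=
    (hQ.cont_cut hx hy (((cont_lap hQ hx hy).mul ha).mul
      ((contDiff_wt hQ.loc).continuous.comp hy).continuousOn) hτ.smooth.continuous hα
        fun r hr => (h0 r hr).1).congr fun w => by
      simp only [Pi.mul_apply, Function.comp_apply]
      ring
  have c2 : Continuous fun w : (E × E) × E => τ (rr G L w.1.1 w.2) * ca G L w.1.1 w.2 w.1.2 *
      jac G L w.1.1 w.2 / rr G L w.1.1 w.2 :=
    (hQ.cont_cut hx hy ((ha.mul (cont_jac hQ hx hy).continuousOn).div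
      (cont_r hQ hx hy).continuousOn (cont_ne hQ)) hτ.smooth.continuous hα
        fun r hr => (h0 r hr).1).congr fun w => by
      simp only [Pi.mul_apply, Pi.div_apply]
      ring
  obtain ⟨i1, s1⟩ := D.swap hQ.loc hK c1
  obtain ⟨i2, s2⟩ := D.swap hQ.loc hK c2
  have j1 := i1.integral_prod_left
  have j2 := i2.integral_prod_left
  have j3 := i1.integral_prod_right
  have a1 := integral_mono_ae (j1.add j2) (integrable_const (D.A + C * ε))
    (D.supp.mono fun z hz => h1 D τ ε hτ z.1 z.2 hz)
  simp only [Pi.add_apply] at a1 s1 s2 j1 j2 j3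
  rw [integral_add j1 j2, s1, s2, integral_const, smul_eq_mul] at a1
  simp only [hQ.two_m3 hE D hτ] at a1
  have k0 := hQ.int_KK hK D.meas D.sub hτ
  have k1 := (hQ.int_PP hK D.meas D.sub hτ (g := fun _ _ => 1) continuousOn_const).const_mul
    (b ^ 2 + c)
  have k2 := (hQ.int_PP hK D.meas D.sub hτ (g := iota 1 b G L) hQ.continuousOn_iota).const_mul c
  have k3 : Integrable (fun x => KK G L τ D.Ω x * wt (G x) + (b ^ 2 + c) *
      ((∫ y in D.Ω, τ (rr G L x y) * 1 * wt (G y)) * wt (G x))) (volume.restrict D.Ω) := k0.add k1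
  have a2 := integral_mono_ae (k3.sub k2) j3 ((ae_restrict_mem D.meas).mono fun x hx => by
    have h3 := mul_le_mul_of_nonneg_right (h2 D τ ε hτ x (D.sub hx))
      (wt_pos (posB_of_loc hQ.loc x)).le
    simp only [Pi.sub_apply]
    rw [integral_mul_const]
    linarith)
  simp only [Pi.sub_apply] at a2
  rw [integral_sub k3 k2, integral_add k0 k1, integral_const_mul, integral_const_mul] at a2
  have e : D.μ.real univ = D.A := rfl
  rw [e] at a1
  simp only [PP]
  linarith

end Vale.Agent.P219
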