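import Vale.Agent.P219.T.Defs

/-!
# The pointwise bound  (TASK)

`D = fderiv (L y) x`, `n = -L x y / r` (unit at `x`), `v = L y x / r` (unit at `y`), `D n = v` (`radial`), `ξ = ν + (a' / r) • L y x` is `G y`-orthogonal to `v` with `G y ξ ξ = 1 - a'²` (`iota_perp`).
`w = D⁻¹ ξ` is `G x`-orthogonal to `L x y` (`Pack.mixed`, `radial`: `G x (L x y) w = -G x (fderiv (L x) y (L y x)) w = -G y (D w) (L y x) = 0`).  `two_gram`: in dimension two the Gram determinant scales by `det²`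
(`exists_sqrt` on both sides reduces to the Euclidean case; `stdOrthonormalBasis`, `LinearMap.det_toMatrix`, `Matrix.det_fin_two`), so `(jac / wt)² * G x w w = 1 - a'²`.
Then `G x e w = G x e' w` with `e' = e + (a / r) • L x y`, `G x e' e' = 1 - a²`, `PosB.sq_le`, and `a a' + t ≤ 1` if `t² ≤ (1 - a²) (1 - a'²)`.
-/

namespace Vale.Agent.P219

open scoped ContDiff Topology RealInnerProductSpace ENNReal
open MeasureTheory Set Filter Vale.Agent.P255
open St (sn gmod)

variable {E : Type*} [NormedAddCommGroup E] [InnerProductSpace ℝ E] [FiniteDimensional ℝ E]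
  [MeasurableSpace E] [BorelSpace E] {G : E → Bil E} {L : E → E → E} {K S : Set E} {b ρ ε : ℝ}
  {τ : ℝ → ℝ} {x y e ν : E}

theorem pt_gram (c : OrthonormalBasis (Fin 2) ℝ E) {B : Bil E} (hs : ∀ u v, B u v = B v u)
    (h0 : B (c 0) (c 1) ^ 2 ≤ B (c 0) (c 0) * B (c 1) (c 1)) (u w : E) :
    B u u * B w w - B u w ^ 2 =
      wt B ^ 2 * (c.repr u 0 * c.repr w 1 - c.repr u 1 * c.repr w 0) ^ 2 := by
  have e1 : wt B ^ 2 = B (c 0) (c 0) * B (c 1) (c 1) - B (c 0) (c 1) ^ 2 := by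
    rw [wt_basis c, Matrix.det_fin_two]
    simp only [Matrix.of_apply, hs (c 1) (c 0)]
    rw [Real.sq_sqrt (by nlinarith)]
    ring
  have hu := c.sum_repr u
  have hw := c.sum_repr w
  rw [Fin.sum_univ_two] at hu hw
  rw [e1]
  generalize c.repr u 0 = u0, c.repr u 1 = u1, c.repr w 0 = w0, c.repr w 1 = w1 at hu hw ⊢
  subst hu hw
  simp only [map_add, map_smul, ContinuousLinearMap.add_apply, ContinuousLinearMap.smul_apply,
    smul_eq_mul, hs (c 1) (c 0)]
  ring

theorem two_gram (hE : Module.finrank ℝ E = 1 + 1) {B₁ B₂ : Bil E} (h₁ : PosB B₁) (h₂ : PosB B₂)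
    (A : E →L[ℝ] E) (u w : E) :
    (B₂ (A u) (A u) * B₂ (A w) (A w) - B₂ (A u) (A w) ^ 2) * wt B₁ ^ 2 =
      (wt B₂ * |A.det|) ^ 2 * (B₁ u u * B₁ w w - B₁ u w ^ 2) := by
  let c : OrthonormalBasis (Fin 2) ℝ E := (stdOrthonormalBasis ℝ E).reindex (finCongr hE)
  have e1 := pt_gram c h₁.1 (h₁.sq_le _ _) u w
  have e2 := pt_gram c (B := B₂.bilinearComp A A) (fun u v => h₂.1 _ _) (h₂.sq_le _ _) u w
  rw [wt_comp] at e2
  simp only [ContinuousLinearMap.bilinearComp_apply] at e2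
  rw [e1, e2]
  ring

theorem Pack.two_pt (hE : Module.finrank ℝ E = 1 + 1) (hP : Pack G L) (h : x ≠ y)
    (he : G x e e = 1) (hν : G y ν ν = 1) :
    ca G L x y e * ca G L y x ν + bb G L y ν x e ≤ 1 := by
  have hx := posB_of_loc hP.loc x
  have hy := posB_of_loc hP.loc y
  have hr := hP.rr_pos h
  have hr' := hP.rr_pos h.symm
  have hw := wt_pos hx
  obtain ⟨p1, p2⟩ := iota_perp hy hr.ne' (iota_sq' hP y x) hν
  obtain ⟨q1, q2⟩ := iota_perp hx hr'.ne' (iota_sq' hP x y) he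
  change G y (ν + (ca G L y x ν / rr G L y x) • L y x) (L y x) = 0 at p1
  change G y (ν + (ca G L y x ν / rr G L y x) • L y x) (ν + (ca G L y x ν / rr G L y x) • L y x)
    = 1 - ca G L y x ν ^ 2 at p2
  change G x (e + (ca G L x y e / rr G L x y) • L x y) (e + (ca G L x y e / rr G L x y) • L x y)
    = 1 - ca G L x y e ^ 2 at q2
  unfold bb
  rw [show -ν - (ca G L y x ν / rr G L y x) • L y x = -(ν + (ca G L y x ν / rr G L y x) • L y x) by
    abel]
  generalize ν + (ca G L y x ν / rr G L y x) • L y x = ξ at p1 p2 ⊢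
  have hD : fderiv ℝ (L y) x ((fderiv ℝ (L y) x).inverse (-ξ)) = -ξ :=
    (isInvertible_of_det (hP.det_ne y x)).self_apply_inverse _
  generalize (fderiv ℝ (L y) x).inverse (-ξ) = w at hD ⊢
  have h1 : G x (L x y) w = 0 := by
    have := hP.mixed y x w (L y x)
    rw [hD, hP.radial] at this
    simp only [map_neg, ContinuousLinearMap.neg_apply, p1] at this
    linarith
  have h2 := two_gram hE hx hy (fderiv ℝ (L y) x) (L x y) w
  rw [hD, hP.radial, h1] at h2
  simp only [map_neg, ContinuousLinearMap.neg_apply, neg_neg, hy.1 (L y x) ξ, p1, p2,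
    iota_sq hP x y, iota_sq' hP x y] at h2
  have h3 : (1 - ca G L y x ν ^ 2) * wt (G x) ^ 2 = jac G L y x ^ 2 * G x w w := by
    refine mul_left_cancel₀ (pow_ne_zero 2 hr'.ne') ?_
    unfold jac
    linear_combination h2
  have h4 : G x (e + (ca G L x y e / rr G L x y) • L x y) w = G x e w := by
    simp only [map_add, map_smul, ContinuousLinearMap.add_apply, ContinuousLinearMap.smul_apply,
      h1, smul_zero, add_zero]
  have h5 := hx.sq_le (e + (ca G L x y e / rr G L x y) • L x y) w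
  rw [h4, q2] at h5
  have a1 : 0 ≤ 1 - ca G L x y e ^ 2 := q2 ▸ hx.nonneg _
  have a2 : 0 ≤ 1 - ca G L y x ν ^ 2 := p2 ▸ hy.nonneg _
  generalize ca G L x y e = a, ca G L y x ν = a' at *
  have h6 : (-(G x e w * jac G L y x / wt (G x))) ^ 2 ≤ (1 - a ^ 2) * (1 - a' ^ 2) := by
    rw [neg_sq, div_pow, div_le_iff₀ (by positivity), mul_assoc, h3, mul_pow]
    nlinarith [mul_le_mul_of_nonneg_right h5 (sq_nonneg (jac G L y x))]
  have h7 := abs_le_of_sq_le_sq' (h6.trans (show _ ≤ (1 - a * a') ^ 2 by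
    nlinarith [sq_nonneg (a - a')])) (by nlinarith [sq_nonneg (a - a')])
  linarith [h7.2]

end Vale.Agent.P219
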