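import Vale.Agent.P219.T.Phi
import Vale.Agent.P219.T.Rad
import Vale.Agent.P219.T.Swap

/-!
# The ray integral from below  (TASK)

`two_r1`: for `0 < r ≤ ε ≤ 1`, `|tF| ≤ C₀ ε` (`sn_le`, `ww ≤ sn²`), `KK_mem`; `τ * sn * jac / r = τ * ι * wt (G x) ≤ wt (G x)` (`iota_le_one`).  `two_r2`: `two_phi` with `f = cs + 1 ≥ 2`, `f' = b² sn`.
-/

namespace Vale.Agent.P219

open scoped ContDiff Topology RealInnerProductSpace ENNReal
open MeasureTheory Set Filter Vale.Agent.P255
open St (sn gmod)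

variable {E : Type*} [NormedAddCommGroup E] [InnerProductSpace ℝ E] [FiniteDimensional ℝ E]
  [MeasurableSpace E] [BorelSpace E] {G : E → Bil E} {L : E → E → E} {K S : Set E} {b ρ ε : ℝ}
  {τ : ℝ → ℝ} {x y e ν : E}

theorem tr1_int (hP : Pack G L) (hK : IsCompact K) (hSK : S ⊆ K) (y ν : E) {g : ℝ → ℝ → ℝ}
    (hg : Continuous fun z : ℝ × ℝ => g z.1 z.2) {f : ℝ → ℝ} (hf : Continuous f) {α : ℝ}
    (hα : 0 < α) (h0 : ∀ r, r ≤ α → f r = 0) : IntegrableOn (fun x =>
      f (rr G L y x) * g (rr G L y x) (ca G L y x ν) * jac G L y x / rr G L y x) S := by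
  simp only [mul_assoc, mul_div_assoc]
  refine two_int1 hK hSK (hP.cont_cut (x := fun _ => y) (y := fun x => x) continuous_const
    continuous_id ?_ hf hα h0)
  have h1 := (cont_r hP (x := fun _ => y) (y := fun x => x) continuous_const
    continuous_id).continuousOn (s := {x | y ≠ x})
  exact (hg.comp_continuousOn (h1.prodMk
    (cont_ca hP continuous_const continuous_id continuous_const))).mul
    ((cont_jac hP continuous_const continuous_id).continuousOn.div h1 (cont_ne hP))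

theorem tr1_tF (b : ℝ) (hρ : 0 < ρ) {r β : ℝ} (h0 : 0 ≤ r) (h1 : r ≤ ε) (hε : ε ≤ 1)
    (hβ : β ^ 2 ≤ 1) : -((cs b 1 + 1 + hh b ρ * cs b 1 ^ 2) * ε) ≤ tF b ρ r β := by
  have hh0 := hh_pos b hρ
  have c1 := one_le_cs b 1
  have c2 : cs b r ≤ cs b 1 := by
    refine Real.cosh_le_cosh.2 ?_
    rw [abs_mul, abs_mul, abs_of_nonneg h0, abs_one]
    exact mul_le_mul_of_nonneg_left (h1.trans hε) (abs_nonneg b)
  have s0 : 0 ≤ sn b r := h0.trans (le_sn b h0)
  have s1 : sn b r ≤ ε * cs b 1 :=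
    (sn_le b h0).trans (mul_le_mul h1 c2 (zero_le_one.trans (one_le_cs b r)) (h0.trans h1))
  have w0 : 0 ≤ ww b r := le_trans (by positivity) (le_ww b r)
  have w1 : ww b r ≤ sn b r ^ 2 := by
    rw [sn_sq]
    exact le_mul_of_one_le_right w0 (by nlinarith [mul_nonneg (sq_nonneg b) w0])
  have w2 : sn b r ^ 2 ≤ ε * cs b 1 ^ 2 := by
    refine (pow_le_pow_left₀ s0 s1 2).trans ?_
    rw [mul_pow]
    exact mul_le_mul_of_nonneg_right (by nlinarith [h0.trans h1]) (sq_nonneg _)
  have b1 : -1 ≤ β := by nlinarith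
  have h2 := mul_le_mul_of_nonneg_right b1 (add_nonneg s0 h0)
  have h3 := mul_le_mul_of_nonneg_left (w1.trans w2) hh0.le
  unfold tF
  linarith

theorem tr1_iota (hP : Pack G L) (b : ℝ) (y x : E) :
    iota 1 b G L y x * wt (G x) = sn b (rr G L y x) * jac G L y x / rr G L y x := by
  rw [iota, div_mul_cancel₀ _ (wt_pos (posB_of_loc hP.loc x)).ne', pow_one, div_mul_eq_mul_div]

theorem tr1_pt (hE : Module.finrank ℝ E = 1 + 1) (hP : PackK b G L) (hρ : 0 < ρ) (hτ : Cut τ ε)
    (hε : ε ≤ 1) (hν : G y ν ν = 1) (x : E) :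
    τ (rr G L y x) * (cs b (rr G L y x) + 1) * ca G L y x ν * jac G L y x / rr G L y x -
        hh b ρ * wt (G x) - (cs b 1 + 1 + hh b ρ * cs b 1 ^ 2) * ε *
          (deriv τ (rr G L y x) * jac G L y x / rr G L y x) ≤
      (deriv τ (rr G L y x) * tF b ρ (rr G L y x) (ca G L y x ν) +
        τ (rr G L y x) * tFr b ρ (rr G L y x) (ca G L y x ν)) * jac G L y x / rr G L y x := by
  obtain ⟨t0, t1, t2, t3⟩ := hτ.nonneg (rr G L y x)
  have hw := wt_pos (posB_of_loc hP.loc x)
  have hJ := div_nonneg (hP.toPack.jac_pos y x).le (rr_nonneg G L y x)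
  have h1 : τ (rr G L y x) * (sn b (rr G L y x) * jac G L y x / rr G L y x) ≤ wt (G x) := by
    rcases eq_or_ne y x with rfl | h
    · rw [hP.toPack.rr_self, div_zero, mul_zero]
      exact hw.le
    · rw [← tr1_iota hP.toPack, ← mul_assoc]
      exact mul_le_of_le_one_left hw.le
        (mul_le_one₀ t1 (hP.toPack.iota_nonneg y x) (hP.iota_le_one hE h))
  have h2 : deriv τ (rr G L y x) * -((cs b 1 + 1 + hh b ρ * cs b 1 ^ 2) * ε) ≤
      deriv τ (rr G L y x) * tF b ρ (rr G L y x) (ca G L y x ν) := by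
    rcases lt_or_ge ε (rr G L y x) with h | h
    · rw [t3 h, zero_mul, zero_mul]
    · exact mul_le_mul_of_nonneg_left (tr1_tF b hρ (rr_nonneg G L y x) h hε
        ((hP.toPack.ca_sq_le y x ν).trans hν.le)) t2
  have h3 := mul_le_mul_of_nonneg_right h2 hJ
  have h4 := mul_le_mul_of_nonneg_left h1 (hh_pos b hρ).le
  simp only [tFr, mul_div_assoc] at h4 ⊢
  linarith

theorem PackK.two_r1 (hE : Module.finrank ℝ E = 1 + 1) (hP : PackK b G L) (hK : IsCompact K)
    (hρ : 0 < ρ) : ∃ C : ℝ, 0 < C ∧ ∀ (τ : ℝ → ℝ) (ε : ℝ), Cut τ ε → ε ≤ 1 →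
      ∀ S : Set E, MeasurableSet S → S ⊆ K → ∀ y ν, G y ν ν = 1 →
        (∫ x in S, τ (rr G L y x) * (cs b (rr G L y x) + 1) * ca G L y x ν * jac G L y x /
          rr G L y x) - hh b ρ * vol G S - C * ε ≤ tI b ρ G L τ S y ν := by
  have c1 := one_le_cs b 1
  have c2 := hh_pos b hρ
  have c3 : 0 < cs b 1 + 1 + hh b ρ * cs b 1 ^ 2 := by positivity
  refine ⟨(cs b 1 + 1 + hh b ρ * cs b 1 ^ 2) * (2 * om E), mul_pos c3 (mul_pos two_pos om_pos),
    fun τ ε hτ hε S hS hSK y ν hν => ?_⟩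
  obtain ⟨α, hα, -, -⟩ := ray1_cut hτ
  obtain ⟨a, ha, h0⟩ := hτ.zero'
  have hε0 : 0 ≤ ε := by
    obtain ⟨α, h1, h2, -⟩ := ray1_cut hτ
    linarith
  have hc := (contDiff_cs b).continuous
  have hs := (contDiff_sn b).continuous
  have hw := (contDiff_ww b).continuous
  have hτ0 := hτ.smooth.continuous
  have hτ1 : Continuous (deriv τ) := hτ.smooth.continuous_deriv (by norm_num)
  have i1 := tr1_int hP.toPack hK hSK y ν (g := fun r β => (cs b r + 1) * β) (by fun_prop) hτ0 ha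
    fun r h => (h0 r h).1
  have i2 := (two_int1 hK hSK (contDiff_wt hP.loc).continuous).const_mul (hh b ρ)
  have i3 := tr1_int hP.toPack hK hSK y ν (g := fun _ _ => 1) continuous_const hτ1 ha
    fun r h => (h0 r h).2
  have i4 := tr1_int hP.toPack hK hSK y ν (g := tF b ρ) (by unfold tF; fun_prop) hτ1 ha
    fun r h => (h0 r h).2
  have i5 := tr1_int hP.toPack hK hSK y ν (g := tFr b ρ) (by unfold tFr; fun_prop) hτ0 ha
    fun r h => (h0 r h).1
  simp only [← mul_assoc, mul_one] at i1 i3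
  have i6 := i4.add i5
  have h1 := integral_mono ((i1.sub i2).sub (i3.const_mul ((cs b 1 + 1 + hh b ρ * cs b 1 ^ 2) * ε)))
    i6 fun x => (tr1_pt hE hP hρ hτ hε hν x).trans_eq (by
      simp only [Pi.add_apply, add_mul, add_div])
  rw [integral_sub' (i1.sub i2) (i3.const_mul _), integral_sub' i1 i2, integral_const_mul,
    integral_const_mul] at h1
  have h2 := mul_le_mul_of_nonneg_left (hP.toPack.KK_mem hE hτ hS y).2 (mul_nonneg c3.le hε0)
  have h3 : tI b ρ G L τ S y ν = _ := integral_congr_ae (Eventually.of_forall fun x =>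
    show _ = deriv τ (rr G L y x) * tF b ρ (rr G L y x) (ca G L y x ν) * jac G L y x / rr G L y x +
      τ (rr G L y x) * tFr b ρ (rr G L y x) (ca G L y x ν) * jac G L y x / rr G L y x by
        simp only [add_mul, add_div])
  simp only [Pi.add_apply] at h1
  rw [h3, vol]
  rw [KK] at h2
  linarith

theorem Pack.two_r2 (hE : Module.finrank ℝ E = 1 + 1) (hP : Pack G L) (hK : IsCompact K)
    (D : NDom G K) (hτ : Cut τ ε) (x : E) :
    (2 * KK G L τ D.Ω x + b ^ 2 * ∫ y in D.Ω, τ (rr G L x y) * iota 1 b G L x y * wt (G y)) *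
        wt (G x) ≤
      ∫ z, τ (rr G L z.1 x) * (cs b (rr G L z.1 x) + 1) * ca G L z.1 x z.2 * jac G L z.1 x /
        rr G L z.1 x ∂D.μ := by
  rw [hP.two_phi hE D hτ (f := fun r => cs b r + 1) (f' := fun r => b ^ 2 * sn b r)
    (((contDiff_cs b).of_le (by exact_mod_cast le_top)).add contDiff_const)
    (fun r => (hasDerivAt_cs b r).add_const 1) x]
  refine mul_le_mul_of_nonneg_right ?_ (wt_pos (posB_of_loc hP.loc x)).le
  obtain ⟨a, ha, h0⟩ := hτ.zero'
  have hc := (contDiff_cs b).continuous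
  have hs := (contDiff_sn b).continuous
  have hτ0 := hτ.smooth.continuous
  have hτ1 : Continuous (deriv τ) := hτ.smooth.continuous_deriv (by norm_num)
  have i1 := tr1_int hP hK D.sub x x (g := fun _ _ => 2) continuous_const hτ1 ha
    fun r h => (h0 r h).2
  have i2 := tr1_int hP hK D.sub x x (g := fun r _ => cs b r + 1) (by fun_prop) hτ1 ha
    fun r h => (h0 r h).2
  have i3 := tr1_int hP hK D.sub x x (g := fun r _ => b ^ 2 * sn b r) (by fun_prop) hτ0 ha
    fun r h => (h0 r h).1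
  have h1 := integral_mono i1 i2 fun y => by
    simp only [mul_div_assoc]
    refine mul_le_mul_of_nonneg_right (mul_le_mul_of_nonneg_left ?_ (hτ.nonneg _).2.2.1)
      (div_nonneg (hP.jac_pos x y).le (rr_nonneg G L x y))
    linarith [one_le_cs b (rr G L x y)]
  have e1 : 2 * KK G L τ D.Ω x =
      ∫ y in D.Ω, deriv τ (rr G L x y) * 2 * jac G L x y / rr G L x y := by
    rw [KK, ← integral_const_mul]
    exact integral_congr_ae (Eventually.of_forall fun y => by ring)
  have e2 : b ^ 2 * ∫ y in D.Ω, τ (rr G L x y) * iota 1 b G L x y * wt (G y) =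
      ∫ y in D.Ω, τ (rr G L x y) * (b ^ 2 * sn b (rr G L x y)) * jac G L x y / rr G L x y := by
    rw [← integral_const_mul]
    refine integral_congr_ae (Eventually.of_forall fun y => ?_)
    simp only [mul_assoc (τ _), tr1_iota hP]
    ring
  simp only [add_mul (deriv τ _ * _), add_div]
  rw [integral_add i2 i3, e1, e2]
  linarith

end Vale.Agent.P219
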