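import Vale.Agent.P219.T.R1
import Vale.Agent.P219.T.M3

/-!
# The averaged ray integral  (TASK)

Integrate `two_r1` over `D.μ`, `NDom.swap`, `two_r2`, `int_KK`, `int_PP`.  Integrability: `Integrable.integral_prod_left` of `NDom.swap` (`cont_cut` for both summands).
-/

namespace Vale.Agent.P219

open scoped ContDiff Topology RealInnerProductSpace ENNReal
open MeasureTheory Set Filter Vale.Agent.P255
open St (sn gmod)

variable {E : Type*} [NormedAddCommGroup E] [InnerProductSpace ℝ E] [FiniteDimensional ℝ E]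
  [MeasurableSpace E] [BorelSpace E] {G : E → Bil E} {L : E → E → E} {K S : Set E} {b ρ ε : ℝ}
  {τ : ℝ → ℝ} {x y e ν : E}

omit [MeasurableSpace E] [BorelSpace E] in
theorem r2_c1 (hP : Pack G L) (hτ : Cut τ ε) (b : ℝ) : Continuous fun w : (E × E) × E =>
    τ (rr G L w.1.1 w.2) * (cs b (rr G L w.1.1 w.2) + 1) * ca G L w.1.1 w.2 w.1.2 *
      jac G L w.1.1 w.2 / rr G L w.1.1 w.2 := by
  obtain ⟨α, hα, h0⟩ := hτ.zero'
  have hx : Continuous fun w : (E × E) × E => w.1.1 := continuous_fst.fst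
  have hy : Continuous fun w : (E × E) × E => w.2 := continuous_snd
  refine (hP.cont_cut hx hy ((((((cont_cs (b := b) hP hx hy).add
    (continuous_const (y := 1))).continuousOn.mul (cont_ca hP hx hy continuous_fst.snd)).mul
      (cont_jac hP hx hy).continuousOn).div (cont_r hP hx hy).continuousOn (cont_ne hP)))
    hτ.smooth.continuous hα fun r hr => (h0 r hr).1).congr fun w => ?_
  simp only [Pi.mul_apply, Pi.div_apply, Pi.add_apply]
  ring

omit [MeasurableSpace E] [BorelSpace E] in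
theorem r2_c2 (hP : Pack G L) (hτ : Cut τ ε) (b ρ : ℝ) : Continuous fun w : (E × E) × E =>
    (deriv τ (rr G L w.1.1 w.2) * tF b ρ (rr G L w.1.1 w.2) (ca G L w.1.1 w.2 w.1.2) +
      τ (rr G L w.1.1 w.2) * tFr b ρ (rr G L w.1.1 w.2) (ca G L w.1.1 w.2 w.1.2)) *
        jac G L w.1.1 w.2 / rr G L w.1.1 w.2 := by
  obtain ⟨α, hα, h0⟩ := hτ.zero'
  have hx : Continuous fun w : (E × E) × E => w.1.1 := continuous_fst.fst
  have hy : Continuous fun w : (E × E) × E => w.2 := continuous_snd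
  have ha := cont_ca hP hx hy continuous_fst.snd
  have hr := cont_r hP hx hy
  have hj := (cont_jac hP hx hy).continuousOn.div hr.continuousOn (cont_ne hP)
  have k1 : ContinuousOn (fun w : (E × E) × E =>
      tF b ρ (rr G L w.1.1 w.2) (ca G L w.1.1 w.2 w.1.2)) {w | w.1.1 ≠ w.2} :=
    (ha.mul ((cont_sn hP hx hy).add hr).continuousOn).sub
      (continuous_const.mul ((contDiff_ww b).continuous.comp hr)).continuousOn
  have k2 : ContinuousOn (fun w : (E × E) × E =>
      tFr b ρ (rr G L w.1.1 w.2) (ca G L w.1.1 w.2 w.1.2)) {w | w.1.1 ≠ w.2} :=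
    (ha.mul ((cont_cs hP hx hy).add continuous_const).continuousOn).sub
      (continuous_const.mul (cont_sn hP hx hy)).continuousOn
  refine ((hP.cont_cut hx hy (k1.mul hj) (hτ.smooth.continuous_deriv (by norm_num)) hα
    fun r hr => (h0 r hr).2).add (hP.cont_cut hx hy (k2.mul hj) hτ.smooth.continuous hα
      fun r hr => (h0 r hr).1)).congr fun w => ?_
  simp only [Pi.mul_apply, Pi.div_apply, Pi.add_apply]
  ring

theorem PackK.two_I (hE : Module.finrank ℝ E = 1 + 1) (hP : PackK b G L) (hK : IsCompact K)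
    (hρ : 0 < ρ) : ∃ C : ℝ, 0 < C ∧ ∀ (D : NDom G K) (τ : ℝ → ℝ) (ε : ℝ), Cut τ ε → ε ≤ 1 →
      Integrable (fun z : E × E => tI b ρ G L τ D.Ω z.1 z.2) D.μ ∧
        2 * (∫ x in D.Ω, KK G L τ D.Ω x * wt (G x)) + b ^ 2 * PP G L τ (iota 1 b G L) D.Ω -
          hh b ρ * D.V * D.A - C * ε * D.A ≤ ∫ z, tI b ρ G L τ D.Ω z.1 z.2 ∂D.μ := by
  obtain ⟨C, hC, h1⟩ := hP.two_r1 hE hK hρ
  refine ⟨C, hC, fun D τ ε hτ hε => ?_⟩
  obtain ⟨i1, e1⟩ := D.swap hP.loc hK (r2_c1 hP.toPack hτ b)
  have i2 : Integrable (fun z : E × E => tI b ρ G L τ D.Ω z.1 z.2) D.μ :=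
    (D.swap hP.loc hK (r2_c2 hP.toPack hτ b ρ)).1.integral_prod_left
  refine ⟨i2, ?_⟩
  have i3 := i1.integral_prod_left
  have i4 := (hP.toPack.int_KK hK D.meas D.sub hτ).const_mul 2
  have i5 := (hP.toPack.int_PP hK D.meas D.sub hτ
    (hP.toPack.continuousOn_iota (m := 1) (b := b))).const_mul (b ^ 2)
  have h2 := integral_mono_ae (i3.sub (integrable_const (hh b ρ * D.V + C * ε))) i2
    (D.supp.mono fun z hz => by
      have := h1 τ ε hτ hε D.Ω D.meas D.sub z.1 z.2 hz.2
      simp only [Pi.sub_apply, NDom.V]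
      linarith)
  have h3 := integral_mono (i4.add i5) i1.integral_prod_right fun x => by
    have := hP.toPack.two_r2 (b := b) hE hK D hτ x
    simp only [Pi.add_apply]
    linarith
  simp only [Pi.sub_apply] at h2
  simp only [Pi.add_apply] at h3
  rw [integral_sub i3 (integrable_const _), integral_const, smul_eq_mul, e1] at h2
  rw [integral_add i4 i5, integral_const_mul, integral_const_mul] at h3
  rw [PP, NDom.A]
  linarith

end Vale.Agent.P219
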