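import Vale.Agent.P219.T.Defs

/-!
# The radial derivative of the Laplacian  (TASK)

`W h z = fderiv (L z) y h`.  By symmetry of the second derivative of `(z, y) ↦ L z y`, the derivative in `y` of `hs G L y x` along `h` is `-covD G (W h) x`.  Differentiating
`fderiv (L z) y (L y z) = -L z y` (`radial`) in `z` at `x` gives `hs G L y x = covD G (W (L y x)) x + (fderiv (L x) y).comp (fderiv (L y) x)`.
-/

namespace Vale.Agent.P219

open scoped ContDiff Topology RealInnerProductSpace ENNReal
open MeasureTheory Set Filter Vale.Agent.P255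
open St (sn gmod)

variable {E : Type*} [NormedAddCommGroup E] [InnerProductSpace ℝ E] [FiniteDimensional ℝ E]
  [MeasurableSpace E] [BorelSpace E] {G : E → Bil E} {L : E → E → E} {K S : Set E} {b ρ ε : ℝ}
  {τ : ℝ → ℝ} {x y e ν : E}

omit [MeasurableSpace E] [BorelSpace E] in
theorem third_key (hP : Pack G L) (x y : E) :
    HasFDerivAt (fun y => hs G L y x) (fderiv ℝ (fun y => hs G L y x) y) y ∧
    fderiv ℝ (fun y => hs G L y x) y (L y x) =
      (fderiv ℝ (L x) y).comp (fderiv ℝ (L y) x) - hs G L y x := by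
  have hA : DifferentiableAt ℝ (fun y => hs G L y x) y :=
    (hP.contDiff_hs.comp (contDiff_id.prodMk contDiff_const)).differentiable one_ne_zero y
  refine ⟨hA.hasFDerivAt, ?_⟩
  ext k
  set F : E × E → E := fun z => L z.1 z.2 with hF
  have h0 : ContDiff ℝ ∞ F := hP.smooth
  have hd : ∀ z, DifferentiableAt ℝ F z := h0.differentiable (by simp)
  have hD : DifferentiableAt ℝ (fderiv ℝ F) (x, y) :=
    (h0.fderiv_right (m := 1) chg_two).differentiable one_ne_zero _
  have sy := (h0.contDiffAt (x := (x, y))).isSymmSndFDerivAt (by simpa using chg_two)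
    (0, L y x) (k, 0)
  have dL : ∀ p, Differentiable ℝ (L p) := fun p => (chg_smooth hP p).differentiable (by simp)
  have a1 : HasFDerivAt (fun w => fderiv ℝ F (x, w))
      ((fderiv ℝ (fderiv ℝ F) (x, y)).comp (ContinuousLinearMap.inr ℝ E E)) y :=
    HasFDerivAt.comp (𝕜 := ℝ) (g := fderiv ℝ F) (f := fun w : E => (x, w)) y hD.hasFDerivAt
      (hasFDerivAt_prodMk_right (𝕜 := ℝ) x y)
  have a2 : HasFDerivAt (fun z => fderiv ℝ F (z, y))
      ((fderiv ℝ (fderiv ℝ F) (x, y)).comp (ContinuousLinearMap.inl ℝ E E)) x :=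
    HasFDerivAt.comp (𝕜 := ℝ) (g := fderiv ℝ F) (f := fun z : E => (z, y)) x hD.hasFDerivAt
      (hasFDerivAt_prodMk_left (𝕜 := ℝ) x y)
  have a3 := (a1.clm_apply (hasFDerivAt_const ((k, 0) : E × E) y)).neg.sub
    ((chrL G x k).hasFDerivAt.comp y (dL x y).hasFDerivAt)
  have a4 : HasFDerivAt (fun w => hs G L w x k) _ y := a3.congr_of_eventuallyEq
    (Eventually.of_forall fun w => by
      refine (packl_hs G L w x k).trans ?_
      rw [(chg_part (F := F) (hd (x, w)) k).1, ← chrL_apply]
      rfl)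
  have a5 := (hA.hasFDerivAt.clm_apply (hasFDerivAt_const k y)).unique a4
  have a6 := congrArg (fun A : E →L[ℝ] E => A (L y x)) a5
  have b1 := a2.clm_apply ((hasFDerivAt_const (0 : E) x).prodMk (dL y x).hasFDerivAt)
  have b2 : HasFDerivAt (fun z => -L z y) _ x := b1.congr_of_eventuallyEq
    (Eventually.of_forall fun z => by
      have := (chg_part (F := F) (hd (z, y)) (L y z)).2
      exact ((hP.radial z y).symm.trans this))
  have b3 := congrArg (fun A : E →L[ℝ] E => A k) ((packl_diff hP y x).hasFDerivAt.neg.unique b2)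
  have c1 := (chg_part (F := F) (hd (x, y)) (fderiv ℝ (L y) x k)).2
  have c2 := hP.radial x y
  simp only [ContinuousLinearMap.comp_apply, add_apply, sub_apply, neg_apply,
    ContinuousLinearMap.flip_apply, ContinuousLinearMap.comp_zero, zero_add,
    ContinuousLinearMap.inr_apply, ContinuousLinearMap.inl_apply,
    ContinuousLinearMap.prod_apply, zero_apply] at a6 b3 ⊢
  rw [a6, packl_hs, sy, c2, ← chrL_apply, map_neg]
  have c3 : fderiv ℝ (L x) y (fderiv ℝ (L y) x k) = fderiv ℝ F (x, y) (0, fderiv ℝ (L y) x k) := c1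
  rw [c3, b3]
  abel

omit [MeasurableSpace E] [BorelSpace E] in
theorem Pack.third (hP : Pack G L) (x y : E) :
    fderiv ℝ (fun y => trc (hs G L y x)) y (L y x) = trS L x y - trc (hs G L y x) := by
  obtain ⟨h1, h2⟩ := third_key hP x y
  have h3 : HasFDerivAt (fun y => trc (hs G L y x)) _ y :=
    (LinearMap.toContinuousLinearMap (detTr E)).hasFDerivAt.comp y h1
  rw [h3.fderiv, ContinuousLinearMap.comp_apply, h2, map_sub]
  rfl

end Vale.Agent.P219
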