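import Vale.Agent.P219.T.Defs

/-!
# Traces in dimension two  (TASK)

`two_tr`: complete `u` to a basis, or `exists_onb` for the inner product (`innerSL`); the matrix is triangular.  `trS_le`: the product fixes `L x y` (`radial` twice), `det ≤ |det| |det|`, and
`jac x y / wt (G y) = jac y x / wt (G x)` (`jac_symm`, as in `iota_symm`).  `lap_ge`: `trc_nonneg` for `iotaA b G L y x` (`iotaA_nonneg`, `trc_add`, `trc_smul`, `trc_smulRight`, `trc_id`, `iota_sq`).
`lap_ge'`: `1 / r ≤ cs / sn` (`sn_le`), `jac_le`.  `two_low`: `jac x y / wt (G y) / r = ι / sn`, `0 ≤ ι ≤ 1`, `cs_sq`.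
-/

namespace Vale.Agent.P219

open scoped ContDiff Topology RealInnerProductSpace ENNReal
open MeasureTheory Set Filter Vale.Agent.P255
open St (sn gmod)

variable {E : Type*} [NormedAddCommGroup E] [InnerProductSpace ℝ E] [FiniteDimensional ℝ E]
  [MeasurableSpace E] [BorelSpace E] {G : E → Bil E} {L : E → E → E} {K S : Set E} {b ρ ε : ℝ}
  {τ : ℝ → ℝ} {x y e ν : E}

omit [MeasurableSpace E] [BorelSpace E] in
theorem two_tr (hE : Module.finrank ℝ E = 1 + 1) {A : E →L[ℝ] E} {u : E} (hu : u ≠ 0) (h : A u = u) :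
    trc A = 1 + A.det := by
  have hE2 : Module.finrank ℝ E = 2 := hE
  let β := Module.finBasisOfFinrankEq ℝ E hE2
  have h1 := LinearMap.toMatrix_mulVec_repr β β (A : E →ₗ[ℝ] E) u
  rw [ContinuousLinearMap.coe_coe, h] at h1
  have h2 := congrFun h1 0
  have h3 := congrFun h1 1
  have h4 : β.repr u 0 ≠ 0 ∨ β.repr u 1 ≠ 0 := by
    by_contra hc
    push Not at hc
    refine hu (β.repr.injective (Finsupp.ext fun i => ?_))
    fin_cases i
    · simpa using hc.1
    · simpa using hc.2
  rw [trc, LinearMap.trace_eq_matrix_trace ℝ β, ContinuousLinearMap.det, ← LinearMap.det_toMatrix β,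
    Matrix.trace_fin_two, Matrix.det_fin_two]
  simp only [Matrix.mulVec, dotProduct, Fin.sum_univ_two] at h2 h3
  generalize LinearMap.toMatrix β β (A : E →ₗ[ℝ] E) = M at h2 h3
  rcases h4 with h4 | h4
  · refine mul_left_cancel₀ h4 ?_
    linear_combination (1 - M 1 1) * h2 + M 0 1 * h3
  · refine mul_left_cancel₀ h4 ?_
    linear_combination (1 - M 0 0) * h3 + M 1 0 * h2

omit [MeasurableSpace E] [BorelSpace E] in
theorem Pack.jac_swap (hP : Pack G L) (x y : E) :
    jac G L y x * wt (G y) = jac G L x y * wt (G x) := by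
  have hx := wt_pos (posB_of_loc hP.loc x)
  have hy := wt_pos (posB_of_loc hP.loc y)
  have h := congrArg abs (hP.jac_symm y x)
  rw [abs_mul, abs_mul, abs_of_pos (pow_pos hx 2), abs_of_pos (pow_pos hy 2)] at h
  rw [jac, jac]
  linear_combination -h

omit [MeasurableSpace E] [BorelSpace E] in
theorem Pack.trS_le (hE : Module.finrank ℝ E = 1 + 1) (hP : Pack G L) (h : x ≠ y) :
    trS L x y ≤ 1 + (jac G L x y / wt (G y)) ^ 2 := by
  have hx := wt_pos (posB_of_loc hP.loc x)
  have hy := wt_pos (posB_of_loc hP.loc y)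
  have hr := hP.rr_pos h.symm
  have h0 : L x y ≠ 0 := fun h0 => by
    have := iota_sq' hP x y
    rw [h0, map_zero] at this
    exact (pow_pos hr 2).ne this
  have h1 : ((fderiv ℝ (L x) y).comp (fderiv ℝ (L y) x)) (L x y) = L x y := by
    rw [ContinuousLinearMap.comp_apply, hP.radial, map_neg, hP.radial, neg_neg]
  have h2 : ((fderiv ℝ (L x) y).comp (fderiv ℝ (L y) x)).det =
      (fderiv ℝ (L x) y).det * (fderiv ℝ (L y) x).det := LinearMap.det_comp _ _
  have h3 := hP.jac_swap x y
  rw [trS, two_tr hE h0 h1, h2]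
  refine add_le_add_right ((le_abs_self _).trans (le_of_eq ?_)) _
  rw [jac, jac] at h3
  rw [abs_mul, jac, div_pow, eq_div_iff (pow_pos hy 2).ne']
  linear_combination |(fderiv ℝ (L x) y).det| * h3

omit [MeasurableSpace E] [BorelSpace E] in
theorem PackK.lap_ge (hE : Module.finrank ℝ E = 1 + 1) (hP : PackK b G L) (h : x ≠ y) :
    cs b (rr G L x y) / sn b (rr G L x y) ≤ lap G L y x := by
  have hr := hP.toPack.rr_pos h.symm
  have hs' := sn_pos b hr
  have h1 := trc_nonneg (posB_of_loc hP.loc x) (iotaA_nonneg hP h.symm)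
  rw [iotaA, trc_add, trc_add, trc_smul, trc_smul, trc_smul, trc_smulRight, trc_id hE,
    iota_sq' hP.toPack x y, hP.toPack.rr_symm y x, div_mul_cancel₀ _ (pow_pos hr 2).ne'] at h1
  rw [lap, hP.toPack.rr_symm y x, div_le_iff₀ hs']
  push_cast at h1
  refine le_of_sub_nonneg (h1.trans (le_of_eq ?_))
  ring

omit [MeasurableSpace E] [BorelSpace E] in
theorem PackK.lap_ge' (hE : Module.finrank ℝ E = 1 + 1) (hP : PackK b G L) (h : x ≠ y) :
    jac G L x y / rr G L x y ≤ lap G L y x * wt (G y) := by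
  have hr := hP.toPack.rr_pos h.symm
  have hs' := sn_pos b hr
  have hy := wt_pos (posB_of_loc hP.loc y)
  have h1 : 1 / rr G L x y ≤ cs b (rr G L x y) / sn b (rr G L x y) := by
    rw [div_le_div_iff₀ hr hs', one_mul, mul_comm]
    exact sn_le b hr.le
  calc jac G L x y / rr G L x y ≤ wt (G y) / rr G L x y :=
        div_le_div_of_nonneg_right (hP.toPack.jac_le x y) hr.le
    _ = 1 / rr G L x y * wt (G y) := by ring
    _ ≤ _ := mul_le_mul_of_nonneg_right (h1.trans (hP.lap_ge hE h)) hy.le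

omit [MeasurableSpace E] [BorelSpace E] in
theorem PackK.two_low (hE : Module.finrank ℝ E = 1 + 1) (hP : PackK b G L) (h : x ≠ y) :
    b ^ 2 + (1 - iota 1 b G L x y) / sn b (rr G L x y) ^ 2 ≤
      lap G L y x * lap G L x y - (trS L x y - 1) / rr G L x y ^ 2 := by
  have hr := hP.toPack.rr_pos h.symm
  have hs' := sn_pos b hr
  have hy := wt_pos (posB_of_loc hP.loc y)
  have a1 := hP.lap_ge hE h
  have a2 := hP.lap_ge hE h.symm
  rw [hP.toPack.rr_symm y x] at a2
  have a0 : 0 ≤ cs b (rr G L x y) / sn b (rr G L x y) :=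
    div_nonneg (zero_le_one.trans (one_le_cs _ _)) hs'.le
  have a3 := mul_le_mul a1 a2 a0 (a0.trans a1)
  have a4 : cs b (rr G L x y) / sn b (rr G L x y) * (cs b (rr G L x y) / sn b (rr G L x y)) =
      b ^ 2 + 1 / sn b (rr G L x y) ^ 2 := by
    rw [← sq, div_pow, cs_sq]
    field_simp
    ring
  have b0 := hP.toPack.iota_nonneg (m := 1) (b := b) x y
  have b1 := hP.iota_le_one hE h
  have b2 : (jac G L x y / wt (G y)) ^ 2 / rr G L x y ^ 2 =
      iota 1 b G L x y ^ 2 / sn b (rr G L x y) ^ 2 := by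
    rw [iota]
    field_simp
  have b3 : (trS L x y - 1) / rr G L x y ^ 2 ≤ iota 1 b G L x y / sn b (rr G L x y) ^ 2 := by
    refine (div_le_div_of_nonneg_right (sub_le_iff_le_add'.2 (hP.toPack.trS_le hE h))
      (pow_pos hr 2).le).trans ?_
    rw [b2]
    exact div_le_div_of_nonneg_right (by nlinarith) (pow_pos hs' 2).le
  rw [sub_div]
  linarith

end Vale.Agent.P219
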